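import Vale.Agent.P154.Neg.Band.Step
import Vale.Agent.P154.Neg.Final

/-!
# P154: an unconditional band settles every box inside it

With threshold at least one the condition always holds, so the band's potential gives
nonreconstruction at all its edges; together with the potential on `[-1/3, 0]` this settles every box
whose edge lies in the band.
-/

namespace Vale.Agent.P154.Neg

open Filter Topology ENNReal

section

variable {ι : Type} [Fintype ι] [Nonempty ι] {l x0 : ℝ} {f : ι → (Fin 3 → ℝ) → ℝ}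
  {g h : (Fin 3 → ℝ) → ℝ}

/-- A conditioned potential with threshold above the top of its functional, regular trees. -/
theorem reg_tendsto_of_uncond (h0 : -1 / 2 ≤ l) (h1 : l ≤ 1) (hc : CondCert l x0 f g h)
    (htop : 3 * sym6 h (single 0) ≤ x0) {d : ℕ} (hd : (d : ℝ) * l ^ 2 ≤ 1) :
    Tendsto (fun n => tX l (fullTree d n) n) atTop (𝓝 0) :=
  reg_tendsto_of_cond h0 h1 hc hd (Eventually.of_forall fun n => (avT_le h0 h1 hc.adm d n).trans
    (mul_le_mul_of_nonneg_left ((tot_le_top h0 h1 hc.adm _ _).trans htop) (Nat.cast_nonneg d)))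

/-- A conditioned potential with threshold above the top of its functional, Poisson trees. -/
theorem gw_tendsto_of_uncond (h0 : -1 / 2 ≤ l) (h1 : l ≤ 1) (hc : CondCert l x0 f g h)
    (htop : 3 * sym6 h (single 0) ≤ x0) {d : ℝ} (hd0 : 0 < d) (hd : d * l ^ 2 ≤ 1) :
    Tendsto (mGW l d) atTop (𝓝 0) := by
  have hx0 : 0 ≤ x0 := (mul_nonneg (by norm_num)
    (sym6_nonneg hc.adm (single_nonneg 0))).trans htop
  refine gw_tendsto_of_cond h0 h1 hx0 hc hd0 hd (Eventually.of_forall fun n =>
    (avP_le hd0.le h0 h1 hc.adm n).trans ?_)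
  rw [ENNReal.ofReal_mul hd0.le]
  refine mul_le_mul_right ((Ex_mono _ fun t => ENNReal.ofReal_le_ofReal
    ((tot_le_top h0 h1 hc.adm t (n + 1)).trans htop)).trans (le_of_eq ?_)) _
  simp [Ex, ENNReal.tsum_mul_right, tsum_wgt hd0.le]

end

namespace Band

open Large

variable {B : Data} {L : ℝ}

/-- A band up to `-1/3` with threshold at least one gives every regular box inside it. -/
theorem regLim_of_band (hB : Sound B) (hx : 1 ≤ x0 B) (hhi : -1 / 3 ≤ (B.hi : ℝ) / B.q) {d : ℕ}
    (hL : (B.lo : ℝ) / B.q ≤ L) : RegLim d L := by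
  intro l hl hq
  rcases lt_or_ge l (-1 / 3) with h | h
  · have h1 : l < (B.hi : ℝ) / B.q := h.trans_le hhi
    obtain ⟨hl0, hl1⟩ := band_mem hB (hL.trans hl.1) h1
    exact reg_tendsto_of_uncond hl0 (by linarith) (condCert_of_sound hB (hL.trans hl.1) h1)
      (sX2_top.trans hx) hq
  · obtain ⟨f, hf⟩ := potRange l ⟨h, hl.2.le⟩
    exact reg_tX_tendsto_of_pot (by linarith) (by linarith [hl.2]) hf hq

/-- A band up to `-1/3` with threshold at least one gives every Poisson box inside it. -/
theorem gwLim_of_band (hB : Sound B) (hx : 1 ≤ x0 B) (hhi : -1 / 3 ≤ (B.hi : ℝ) / B.q) {a D : ℝ}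
    (hL : (B.lo : ℝ) / B.q ≤ L) : GWLim a D L := by
  intro d _ hd0 l hl hq
  rcases lt_or_ge l (-1 / 3) with h | h
  · have h1 : l < (B.hi : ℝ) / B.q := h.trans_le hhi
    obtain ⟨hl0, hl1⟩ := band_mem hB (hL.trans hl.1) h1
    exact gw_tendsto_of_uncond hl0 (by linarith) (condCert_of_sound hB (hL.trans hl.1) h1)
      (sX2_top.trans hx) hd0 hq
  · obtain ⟨f, hf⟩ := potRange l ⟨h, hl.2.le⟩
    exact gw_mGW_tendsto_of_pot (by linarith) (by linarith [hl.2]) hf hd0 hq

end Band

/-- The pieces of a list from those of a prefix and limits along the rest. -/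
theorem gwPieces_append : ∀ (r s : List (ℚ × ℚ)) (a : ℚ), GWPieces r a →
    (∀ b ∈ s, ∀ a' : ℝ, GWLim a' (b.1 : ℝ) (b.2 : ℝ)) → GWPieces (r ++ s) a
  | [], [], _, _, _ => trivial
  | [], (D, L) :: s, a, _, h => ⟨h (D, L) List.mem_cons_self a,
      gwPieces_append [] s _ trivial fun b hb => h b (List.mem_cons_of_mem _ hb)⟩
  | (_, _) :: r, s, _, hr, h => ⟨hr.1, gwPieces_append r s _ hr.2 h⟩

/-- With a band on `[-17/38, -1/3)`, only `d = 4` and the first nine Poisson boxes remain. -/
theorem threshold_of_band {B : Band.Data} (hB : Band.Sound B) (hx : 1 ≤ Band.x0 B)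
    (hlo : (B.lo : ℝ) / B.q ≤ -17 / 38) (hhi : -1 / 3 ≤ (B.hi : ℝ) / B.q)
    (h4 : RegLim 4 (-1 / 2)) (hG : GWPieces (gwBoxes.take 9) (39/10)) : Threshold := by
  refine threshold_of_boxes (fun b hb => ?_) ?_
  · simp only [regBoxes, List.mem_cons, List.not_mem_nil, or_false] at hb
    rcases hb with rfl | rfl | rfl | rfl | rfl
    · norm_num at h4 ⊢; exact h4
    all_goals exact Band.regLim_of_band hB hx hhi (hlo.trans (by norm_num))
  · have := gwPieces_append (gwBoxes.take 9) (gwBoxes.drop 9) _ hG fun b hb a' => ?_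
    · rwa [List.take_append_drop] at this
    simp only [gwBoxes, List.drop_succ_cons, List.drop_zero, List.mem_cons, List.not_mem_nil,
      or_false] at hb
    rcases hb with rfl | rfl | rfl | rfl | rfl | rfl | rfl | rfl | rfl | rfl | rfl | rfl | rfl |
      rfl | rfl <;> exact Band.gwLim_of_band hB hx hhi (hlo.trans (by norm_num))

end Vale.Agent.P154.Neg
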