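import Vale.Agent.P154.Neg.Large.Terms

/-!
# P154: a positivity test with one bitwise comparison

As `Kron.testNN`, for expressions whose degrees are known beforehand: every packed digit is at least
`2^s` exactly when all the marked bits are set.
-/

namespace Vale.Agent.P154.Neg.Band

open MvPolynomial Finset Large

/-- All marked bits are set, and the coefficient bound fits. -/
def fastNN (e : Kron.Ex) (W : Fin 4 → ℕ) (k s : ℕ) : Bool :=
  decide (e.nrm < 2 ^ s) && decide (W 0 * W 1 * W 2 * W 3 ≤ 2 ^ k) &&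
    decide (((e.packed W (2 ^ (s + 1)) + ((2 ^ s * Kron.rep (2 ^ (s + 1)) k : ℕ) : ℤ)).toNat
      &&& 2 ^ s * Kron.rep (2 ^ (s + 1)) k) = 2 ^ s * Kron.rep (2 ^ (s + 1)) k)

/-- A digit of a packed sum. -/
lemma digit_of_sum {B : ℕ} (hB : 0 < B) (g : ℕ → ℕ) (hg : ∀ i, g i < B) {n i : ℕ} (hi : i < n) :
    (∑ j ∈ range n, g j * B ^ j) / B ^ i % B = g i := by
  obtain ⟨m, rfl⟩ := Nat.exists_eq_add_of_le (show i + 1 ≤ n by omega)
  have hsplit : ∑ j ∈ range (i + 1 + m), g j * B ^ j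
      = ∑ j ∈ range i, g j * B ^ j
        + B ^ i * (g i + B * ∑ j ∈ range m, g (i + 1 + j) * B ^ j) := by
    rw [sum_range_add, sum_range_succ, mul_sum, mul_add, mul_sum, add_assoc]
    congr 2
    · exact mul_comm _ _
    · exact sum_congr rfl fun j _ => by rw [pow_add, pow_succ]; ring
  have hlow := Kron.digits_lt g hg i
  rw [hsplit, Nat.add_mul_div_left _ _ (pow_pos hB i), Nat.div_eq_of_lt hlow, zero_add,
    Nat.add_mul_mod_self_left, Nat.mod_eq_of_lt (hg i)]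

lemma marked_bit {s : ℕ} (g : ℕ → ℕ) (hg : ∀ i, g i < 2 ^ (s + 1)) {n i : ℕ} (hi : i < n) :
    Nat.testBit (∑ j ∈ range n, g j * (2 ^ (s + 1)) ^ j) (s + (s + 1) * i)
      = decide (2 ^ s ≤ g i) := by
  have h := digit_of_sum (Nat.two_pow_pos _) g hg hi
  set T := ∑ j ∈ range n, g j * (2 ^ (s + 1)) ^ j with hT
  rw [← Nat.testBit_div_two_pow, pow_mul]
  set Q := T / (2 ^ (s + 1)) ^ i with hQ
  have e : Nat.testBit Q s = Nat.testBit (Q % 2 ^ (s + 1)) s := by
    rw [Nat.testBit_mod_two_pow]; simp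
  rw [e, h]
  have hlt := hg i
  rw [pow_succ] at hlt
  rcases le_or_gt (2 ^ s) (g i) with c | c
  · obtain ⟨r, hr⟩ := Nat.exists_eq_add_of_le c
    rw [hr, Nat.testBit_two_pow_add_eq, Nat.testBit_lt_two_pow (by omega)]
    simp
  · rw [Nat.testBit_lt_two_pow c]
    simp [Nat.not_le.2 c]

theorem nonneg_of_fastNN {e : Kron.Ex} {W : Fin 4 → ℕ} {k s : ℕ} (hdeg : ∀ i, e.degB i < W i)
    (ht : fastNN e W k s = true) (x : Fin 4 → ℝ) (hx : ∀ i, 0 ≤ x i) : 0 ≤ e.evR x := by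
  classical
  simp only [fastNN, Bool.and_eq_true, decide_eq_true_eq] at ht
  obtain ⟨⟨hn', hk⟩, hc⟩ := ht
  have hn : (e.nrm : ℤ) < 2 ^ s := by exact_mod_cast hn'
  have hW : ∀ m ∈ e.poly.support, ∀ i, m i < W i := fun m hm i =>
    lt_of_le_of_lt ((degreeOf_le_iff.1 (e.degreeOf_le i)) m hm) (hdeg i)
  obtain ⟨f, hfb, hfm, hev⟩ := Kron.packed_eq hW hk
  set B := 2 ^ (s + 1) with hBdef
  have hh : ∀ i, 0 ≤ f i + (2 ^ s : ℤ) ∧ f i + (2 ^ s : ℤ) < (B : ℤ) := by
    intro i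
    have h1 := abs_le.1 (hfb i)
    have h3 : (B : ℤ) = 2 * 2 ^ s := by rw [hBdef]; push_cast; ring
    constructor <;> linarith [h1.1, h1.2]
  let g : ℕ → ℕ := fun i => (f i + (2 ^ s : ℤ)).toNat
  have hgc : ∀ i, (g i : ℤ) = f i + 2 ^ s := fun i => Int.toNat_of_nonneg (hh i).1
  have hg : ∀ i, g i < B := fun i => by
    have := (hh i).2
    rw [← hgc] at this
    exact_mod_cast this
  have hT : e.packed W B + ((2 ^ s * Kron.rep B k : ℕ) : ℤ)
      = ((∑ i ∈ range (2 ^ k), g i * B ^ i : ℕ) : ℤ) := by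
    rw [hev, Kron.rep_eq, Finset.mul_sum]
    push_cast
    rw [← sum_add_distrib]
    refine sum_congr rfl fun i _ => ?_
    rw [hgc]; ring
  rw [hT, Int.toNat_natCast, Kron.rep_eq, Finset.mul_sum] at hc
  have hall : ∀ i < 2 ^ k, 2 ^ s ≤ g i := fun i hi => by
    have hs : (2 : ℕ) ^ s < B := by rw [hBdef]; exact Nat.pow_lt_pow_succ (by norm_num)
    have := congrArg (fun v => Nat.testBit v (s + (s + 1) * i)) hc
    simp only [Nat.testBit_and, hBdef, marked_bit g hg hi,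
      marked_bit (fun _ => 2 ^ s) (fun _ => hs) hi] at this
    simpa using this
  rw [← e.aeval_poly, aeval_def, eval₂_eq']
  refine Finset.sum_nonneg fun m hm =>
    mul_nonneg ?_ (Finset.prod_nonneg fun i _ => pow_nonneg (hx i) _)
  obtain ⟨hlt, hco⟩ := hfm m hm
  have h2 : ((2 ^ s : ℕ) : ℤ) ≤ (g (Kron.idx W m) : ℤ) := by
    exact_mod_cast hall (Kron.idx W m) hlt
  rw [hgc, hco] at h2
  push_cast at h2
  have h4 : 0 ≤ coeff m e.poly := by linarith
  simpa using (Int.cast_nonneg h4 : (0 : ℝ) ≤ _)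

end Vale.Agent.P154.Neg.Band
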