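import Vale.Agent.P154.Neg.Band.Defs
import Vale.Agent.P154.Neg.Band.Pack

/-!
# P154: the check of a conditioned band certificate

Every requirement becomes either a polynomial identity or the nonnegativity of tensor Bernstein
coefficient polynomials on boxes, decided at a packed integer point.
-/

namespace Vale.Agent.P154.Neg.Band

open Large

/-- Scale the coefficients. -/
def tscale (c : ℤ) (L : List Term) : List Term := L.map fun t => { t with c := c * t.c }

/-- Product of term lists. -/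
def tmul (L M : List Term) : List Term :=
  L.flatMap fun s => M.map fun t => ⟨s.c * t.c, s.e + t.e, s.i + t.i, s.j + t.j, s.m + t.m, s.n + t.n⟩

/-- Power of a term list. -/
def tpow (L : List Term) : ℕ → List Term
  | 0 => [⟨1, 0, 0, 0, 0, 0⟩]
  | n + 1 => tmul L (tpow L n)

/-- Move a one-posterior list to the second posterior. -/
def toRest (L : List Term) : List Term := L.map fun t => ⟨t.c, t.e, 0, 0, t.i, t.j⟩

variable (B : Data)

/-- Difference of the other functional and this one. -/
def dPhi (k : Fin 2) : List Term := B.phi (oth k) ++ tscale (-1) (B.phi k)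

/-- The right-hand side over the square of the edge, times `36 den wden xd`. -/
def xTerms (k : Fin 2) : List Term :=
  tscale (36 * B.wden * B.xd) (B.phi k)
    ++ tmul (tscale (36 * B.xd) (B.pw k)) (toRest (dPhi B k))
    ++ tmul (tscale (36 * B.xd) (toRest (B.qw k))) (dPhi B k)
    ++ tmul (tscale (B.den : ℤ) B.mult)
        [⟨B.xd, 0, 0, 0, 2, 0⟩, ⟨-36 * (B.xn : ℤ), 0, 0, 0, 0, 0⟩]
    ++ [⟨-((B.den : ℤ) * B.xd * B.gain), 0, 2, 0, 0, 0⟩]

/-- The gap over the square of the edge. -/
def gTerms (k : Fin 2) : List Term :=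
  tscale (6 * B.scale) (xTerms B k)
    ++ tscale (36 * B.wden * B.xd) (((B.orbit k).filter hasChild).map shiftT)

/-- A lifted term as an expression. -/
def liftEx (z : Fin 3 → Kron.Ex) (t : Term) : Kron.Ex :=
  let d : Kron.Ex := .add (z 0) (.add (z 1) (z 2))
  let e2 : Kron.Ex := .add (.mul (z 0) (z 1)) (.add (.mul (z 0) (z 2)) (.mul (z 1) (z 2)))
  let e3 : Kron.Ex := .mul (z 0) (.mul (z 1) (z 2))
  let n : ℕ := 2 * t.i + 3 * t.j
  .mul (.cst t.c) (.mul
    (.mul (.pow (.add (.mul (.cst 6) (.pow d 2)) (.mul (.cst (-18)) e2)) t.i)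
      (.pow (.add (.mul (.cst 6) (.pow d 3))
        (.add (.mul (.cst (-27)) (.mul d e2)) (.mul (.cst 81) e3))) t.j))
    (.add (.cst (n : ℤ)) (.mul (.cst (1 - (n : ℤ))) d)))

/-- A correction term as an expression. -/
def remEx (z : Fin 3 → Kron.Ex) (t : Term) : Kron.Ex :=
  let d : Kron.Ex := .add (z 0) (.add (z 1) (z 2))
  let e2 : Kron.Ex := .add (.mul (z 0) (z 1)) (.add (.mul (z 0) (z 2)) (.mul (z 1) (z 2)))
  let e3 : Kron.Ex := .mul (z 0) (.mul (z 1) (z 2))
  .mul (.cst t.c) (.mul (.pow (.add d (.cst (-1))) t.e) (.mul (.pow e2 t.i) (.pow e3 t.j)))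

/-- The linearised functional, times `den`. -/
def uEx (k : Fin 2) (z : Fin 3 → Kron.Ex) : Kron.Ex :=
  .add (sumEx ((B.phi k).map (liftEx z)))
    (.mul (.pow (.add (.add (z 0) (.add (z 1) (z 2))) (.cst (-1))) 2)
      (sumEx ((B.rem k).map (remEx z))))

/-- The identity of the orbit sum. -/
def idEx (k : Fin 2) : Kron.Ex :=
  .add (.mul (.cst (B.scale : ℤ)) (sumEx ((List.finRange 6).map fun s => uEx B k (zEx s))))
    (.mul (.cst (-1)) (sumEx ((B.orbit k).map vtermEx)))

/-- Equality of term lists. -/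
def sameTerms : List Term → List Term → Bool
  | [], [] => true
  | s :: L, t :: M => s.c == t.c && s.e == t.e && s.i == t.i && s.j == t.j && s.m == t.m
      && s.n == t.n && sameTerms L M
  | _, _ => false

/-- The bound of the upper linearisation: correction against the exact remainder. -/
def surTerms (k : Fin 2) : List Term :=
  (B.rem k).flatMap (fun t =>
      tscale (t.c * (18 ^ (4 - t.i) * 162 ^ (2 - t.j) : ℕ))
        (tmul (tmul (tpow [⟨1, 1, 0, 0, 0, 0⟩, ⟨-1, 0, 0, 0, 0, 0⟩] t.e)
            [⟨1, 2 * t.i + 3 * t.j, 0, 0, 0, 0⟩])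
          (tmul (tpow [⟨6, 0, 0, 0, 0, 0⟩, ⟨-1, 0, 1, 0, 0, 0⟩] t.i)
            (tpow [⟨6, 0, 0, 0, 0, 0⟩, ⟨-3, 0, 1, 0, 0, 0⟩, ⟨2, 0, 0, 1, 0, 0⟩] t.j))))
    ++ (B.phi k).flatMap (fun t =>
      (List.range (2 * t.i + 3 * t.j - 1)).map fun r =>
        ⟨-(t.c * ((18 ^ 4 * 162 ^ 2 : ℕ) : ℤ) * ((r + 1 : ℕ) : ℤ)), r + 1, t.i, t.j, 0, 0⟩)

/-- Least exponent of two that is at least `n`, up to forty. -/
def bitsFor (n : ℕ) : ℕ := (List.range 40).foldl (fun a i => if 2 ^ i < n then i + 1 else a) 0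

/-- Degrees below which the tensor test works. -/
def degs (e : Kron.Ex) : Fin 4 → ℕ := fun i => e.degB i + 1

/-- A box for a posterior: `[lo/den, hi/den)` for twice the root of the second moment, in one of
the two regions, and `[k0/kd, k1/kd]` for the position of the third moment between its two ends. -/
structure Box where
  /-- upper region, where the lower end of the third moment is affine -/
  up : Bool
  /-- lower end -/
  lo : ℕ
  /-- upper end -/
  hi : ℕ
  /-- denominator -/
  den : ℕ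
  /-- lower position -/
  k0 : ℕ
  /-- upper position -/
  k1 : ℕ
  /-- denominator of the positions -/
  kd : ℕ

/-- The lower region. -/
def root0 : Box := ⟨false, 0, 1, 1, 0, 1, 1⟩

/-- The upper region. -/
def root1 : Box := ⟨true, 1, 2, 1, 0, 1, 1⟩

/-- Lower half in the second moment. -/
def Box.tL (b : Box) : Box := ⟨b.up, 2 * b.lo, b.lo + b.hi, 2 * b.den, b.k0, b.k1, b.kd⟩

/-- Upper half in the second moment. -/
def Box.tR (b : Box) : Box := ⟨b.up, b.lo + b.hi, 2 * b.hi, 2 * b.den, b.k0, b.k1, b.kd⟩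

/-- Lower half in the third moment. -/
def Box.kL (b : Box) : Box := ⟨b.up, b.lo, b.hi, b.den, 2 * b.k0, b.k0 + b.k1, 2 * b.kd⟩

/-- Upper half in the third moment. -/
def Box.kR (b : Box) : Box := ⟨b.up, b.lo, b.hi, b.den, b.k0 + b.k1, 2 * b.k1, 2 * b.kd⟩

/-- Twice the parameter of a box, times `den (1+y)`. -/
def boxT (b : Box) (y : Kron.Ex) : Kron.Ex := .add (.cst (b.lo : ℤ)) (.mul (.cst (b.hi : ℤ)) y)

/-- Upper end of the third moment, scaled. -/
def endUp (b : Box) (y : Kron.Ex) : Kron.Ex := .pow (boxT b y) 3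

/-- Lower end of the third moment, scaled. -/
def endLo (b : Box) (y : Kron.Ex) : Kron.Ex :=
  if b.up then .mul (.mul (.cst (b.den : ℤ)) (onePlus y))
    (.add (.mul (.cst 3) (.pow (boxT b y) 2))
      (.mul (.cst (-4)) (.pow (.mul (.cst (b.den : ℤ)) (onePlus y)) 2)))
  else .mul (.cst (-1)) (.pow (boxT b y) 3)

/-- Upper end of the box, scaled. -/
def boxUp (b : Box) (y : Kron.Ex) : Kron.Ex :=
  .add (.mul (.cst ((b.kd : ℤ) - b.k1)) (endLo b y)) (.mul (.cst (b.k1 : ℤ)) (endUp b y))

/-- Lower end of the box, scaled. -/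
def boxLo (b : Box) (y : Kron.Ex) : Kron.Ex :=
  .add (.mul (.cst ((b.kd : ℤ) - b.k0)) (endLo b y)) (.mul (.cst (b.k0 : ℤ)) (endUp b y))

/-- One side of a piece, to degree `M`. -/
def sideB (b : Box) (p : Fin 4) (M i j : ℕ) (y : Kron.Ex) : Kron.Ex :=
  .mul (.cst ((6 ^ (i + j) * b.kd ^ (3 - j) : ℕ) : ℤ))
    (.mul (.pow (.mul (.cst ((2 * b.den : ℕ) : ℤ)) (onePlus y)) (M - (2 * i + 3 * j)))
      (.mul (.pow (boxT b y) (2 * i)) (blosEx p j (boxLo b y) (boxUp b y))))

/-- The child's side: in the lower region the square of the parameter is removed if asked. -/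
def childB (cut : Bool) (b : Box) (p : Fin 4) (M i j : ℕ) (y : Kron.Ex) : Kron.Ex :=
  if cut && !b.up then .mul (.cst ((6 ^ (i + j) * b.kd ^ (3 - j) : ℕ) : ℤ))
    (.mul (.pow (.mul (.cst ((2 * b.den : ℕ) : ℤ)) (onePlus y)) (M - (2 * i + 3 * j)))
      (.mul (.pow (boxT b y) (2 * i + 3 * j - 2)) (blosEx p j (.cst (2 * (b.k0 : ℤ) - b.kd)) (.cst (2 * (b.k1 : ℤ) - b.kd)))))
  else sideB b p M i j y

/-- A range `[lo/q, hi/q)` of the first variable with the degrees used to clear denominators. -/
structure Frame where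
  /-- denominator -/
  q : ℕ
  /-- lower end -/
  lo : ℤ
  /-- upper end -/
  hi : ℤ
  /-- degree in the first variable -/
  E : ℕ
  /-- degree of the child -/
  M : ℕ
  /-- degree of the rest -/
  N : ℕ

/-- Lower half of the range. -/
def Frame.hL (F : Frame) : Frame := ⟨2 * F.q, 2 * F.lo, F.lo + F.hi, F.E, F.M, F.N⟩

/-- Upper half of the range. -/
def Frame.hR (F : Frame) : Frame := ⟨2 * F.q, F.lo + F.hi, 2 * F.hi, F.E, F.M, F.N⟩

/-- Degrees of a term list. -/
def frameOf (q : ℕ) (lo hi : ℤ) (L : List Term) : Frame :=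
  ⟨q, lo, hi, (L.map fun t => t.e).foldr max 0,
    (L.map fun t => 2 * t.i + 3 * t.j).foldr max 0, (L.map fun t => 2 * t.m + 3 * t.n).foldr max 0⟩

/-- One term of a piece. -/
def termB (F : Frame) (cut : Bool) (bw bb : Box) (p r : Fin 4) (t : Term) : Kron.Ex :=
  .mul (.mul (.cst t.c)
      (.mul (.pow (.add (.cst F.lo) (.mul (.cst F.hi) (.var 0))) t.e)
        (.pow (.mul (.cst (F.q : ℤ)) (onePlus (.var 0))) (F.E - t.e))))
    (.mul (childB cut bw p F.M t.i t.j (.var 1)) (sideB bb r F.N t.m t.n (.var 2)))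

/-- The part of a term in the first variable and the child. -/
def termW (F : Frame) (cut : Bool) (bw : Box) (p : Fin 4) (t : Term) : Kron.Ex :=
  .mul (.mul (.cst t.c)
      (.mul (.pow (.add (.cst F.lo) (.mul (.cst F.hi) (.var 0))) t.e)
        (.pow (.mul (.cst (F.q : ℤ)) (onePlus (.var 0))) (F.E - t.e))))
    (childB cut bw p F.M t.i t.j (.var 1))

/-- The terms grouped by the exponents of the rest. -/
def groupsOf : ℕ → List Term → List ((ℕ × ℕ) × List Term)
  | _, [] => []
  | 0, L => L.map fun t => ((t.m, t.n), [t])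
  | f + 1, t :: L => ((t.m, t.n), t :: L.filter fun u => u.m == t.m && u.n == t.n)
      :: groupsOf f (L.filter fun u => !(u.m == t.m && u.n == t.n))

/-- One piece, grouped. -/
def pieceB (F : Frame) (cut : Bool) (bw bb : Box) (p r : Fin 4) (L : List Term) : Kron.Ex :=
  sumEx ((groupsOf L.length L).map fun g =>
    .mul (sumEx (g.2.map (termW F cut bw p))) (sideB bb r F.N g.1.1 g.1.2 (.var 2)))

/-- Add a term to a merged list. -/
def ins (t : Term) : List Term → List Term
  | [] => [t]
  | u :: L => if u.e == t.e && u.i == t.i && u.j == t.j && u.m == t.m && u.n == t.n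
      then ⟨u.c + t.c, u.e, u.i, u.j, u.m, u.n⟩ :: L else u :: ins t L

/-- Merge equal monomials. -/
def merge (L : List Term) : List Term := L.foldr ins []

/-- Slots of a frame. -/
def slots (F : Frame) : Fin 4 → ℕ := ![F.E + 1, F.M + 1, F.N + 1, 1]

/-- Shape restrictions. -/
def termOkB (F : Frame) (cut : Bool) (t : Term) : Bool :=
  decide (t.e ≤ F.E) && decide (2 * t.i + 3 * t.j ≤ F.M) && decide (2 * t.m + 3 * t.n ≤ F.N) &&
    decide (t.j ≤ 3) && decide (t.n ≤ 3) && (!cut || decide (2 ≤ 2 * t.i + 3 * t.j))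

/-- Nonnegative Bernstein coefficients on the leaves of a bisection tree. -/
def treeOk (s : ℕ) (cut : Bool) (L : List Term) : Tree → Frame → Box → Box → Bool
  | .lf, F, bw, bb => (List.finRange 4).all fun p => (List.finRange 4).all fun r =>
      fastNN (pieceB F cut bw bb p r L) (slots F)
        (bitsFor ((F.E + 1) * (F.M + 1) * (F.N + 1))) s
  | .nd 0 a b, F, bw, bb => treeOk s cut L a F.hL bw bb && treeOk s cut L b F.hR bw bb
  | .nd 1 a b, F, bw, bb => treeOk s cut L a F bw.tL bb && treeOk s cut L b F bw.tR bb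
  | .nd 2 a b, F, bw, bb => treeOk s cut L a F bw.kL bb && treeOk s cut L b F bw.kR bb
  | .nd 3 a b, F, bw, bb => treeOk s cut L a F bw bb.tL && treeOk s cut L b F bw bb.tR
  | .nd _ a b, F, bw, bb => treeOk s cut L a F bw bb.kL && treeOk s cut L b F bw bb.kR

/-- A term list is nonnegative on a range and on two posteriors. -/
def posList (s : ℕ) (q : ℕ) (lo hi : ℤ) (cut : Bool) (L : List Term) : List Tree → Bool
  | [a, b, c, d] =>
    let M := merge L
    let F := frameOf q lo hi M
    decide (0 < q) && decide (lo < hi) && M.all (termOkB F cut) && treeOk s cut M a F root0 root0 &&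
      treeOk s cut M b F root0 root1 && treeOk s cut M c F root1 root0 &&
        treeOk s cut M d F root1 root1
  | _ => false

/-- Nonnegative on one posterior. -/
def posOne (L : List Term) : Bool :=
  L.all (fun t => t.m == 0 && t.n == 0) && posList B.posBits B.q B.lo B.hi false L B.oneTree

/-- The elementary conditions. -/
def shapeOk : Bool :=
  decide (0 < B.q) && decide (0 < B.den) && decide (0 < B.wden) && decide (0 < B.xd) &&
    decide (0 < B.gain) && decide (0 < B.low) && decide (0 < B.scale) &&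
    decide (-(B.q : ℤ) ≤ 2 * B.lo) && decide (B.hi ≤ 0) && decide (B.lo < B.hi) &&
    (List.finRange 2).all fun k =>
      (B.phi k).all (fun t => hasChild t && t.e == 0 && t.m == 0 && t.n == 0) &&
      (B.rem k).all (fun t => decide (t.i ≤ 4) && decide (t.j ≤ 2)) &&
      (B.pw k).all (fun t => t.e == 0 && t.m == 0 && t.n == 0) &&
      (B.qw k).all (fun t => t.m == 0 && t.n == 0) &&
      (B.orbit k).all (fun t => t.e == 0) &&
      sameTerms ((B.orbit k).filter fun t => !hasChild t)
        (tscale (6 * B.scale) (toRest (B.phi k))) &&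
      B.mult.all (fun t => t.e == 0 && t.m == 0 && t.n == 0)

/-- The orbit identity. -/
def idOk (k : Fin 2) : Bool := Kron.testZero (idEx B k) (degs (idEx B k)) B.idBits

/-- The inequality. -/
def keyOk (k : Fin 2) : Bool := posList B.posBits B.q B.lo B.hi true (gTerms B k) (B.keyTree k)

/-- The upper linearisation. -/
def surOk (k : Fin 2) : Bool :=
  (surTerms B k).all (fun t => t.m == 0 && t.n == 0) &&
    posList B.posBits B.q ((B.q : ℤ) + 2 * B.lo) ((B.q : ℤ) - B.lo + 1) false (surTerms B k)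
      (B.surTree k)

/-- The ranges of the weights. -/
def rangeOk (k : Fin 2) : Bool :=
  posOne B (B.pw k) &&
    posOne B (⟨(B.wden : ℤ) * (B.q : ℤ) ^ 2, 0, 0, 0, 0, 0⟩ :: tscale (-(B.lo ^ 2)) (B.pw k)) &&
    posOne B (B.qw k) && posOne B (⟨(B.wden : ℤ), 0, 0, 0, 0, 0⟩ :: tscale (-1) (B.qw k))

/-- The multiplier and the lower bound. -/
def sideOk : Bool :=
  posOne B B.mult &&
    posOne B (⟨-(B.low : ℤ), 0, 1, 0, 0, 0⟩ :: tscale 6 (B.phi 0 ++ B.phi 1))

/-- The whole check. -/
def check : Bool :=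
  shapeOk B && sideOk B && (List.finRange 2).all fun k =>
    idOk B k && keyOk B k && surOk B k && rangeOk B k

end Vale.Agent.P154.Neg.Band
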