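import Vale.Agent.P154.Neg.Large.Terms
import Vale.Agent.P154.Neg.Large.Simplex

/-!
# P154: data of a conditioned potential on a band of negative edges

Two functionals of the posterior given by integer term lists in the scaled invariants `6 S`, `6 C`,
their linearisation on a product atom, the weights of the convex combinations, and the multiplier of
the condition on the squared second moment.
-/

namespace Vale.Agent.P154.Neg.Band

open Large

/-- A bisection tree: a node names the coordinate that is halved. -/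
inductive Tree
  | lf
  | nd (v : ℕ) (a b : Tree)

/-- Data of a band `l ∈ [lo/q, hi/q)`. -/
structure Data where
  /-- denominator of the band -/
  q : ℕ
  /-- lower end of the band, times `q` -/
  lo : ℤ
  /-- upper end of the band, times `q` -/
  hi : ℤ
  /-- denominator of the functionals and of the linearisation -/
  den : ℕ
  /-- denominator of the weights, the multiplier and the gain -/
  wden : ℕ
  /-- the functionals, terms in `6 S`, `6 C` -/
  phi : Fin 2 → List Term
  /-- the correction, exponents of `d - 1`, `e2`, `e3` in the fields `e`, `i`, `j` -/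
  rem : Fin 2 → List Term
  /-- weight of the other functional of the rest, divided by `l^2` -/
  pw : Fin 2 → List Term
  /-- weight of the other functional of the child -/
  qw : Fin 2 → List Term
  /-- multiplier of the condition -/
  mult : List Term
  /-- numerator of the threshold of the condition -/
  xn : ℕ
  /-- denominator of the threshold of the condition -/
  xd : ℕ
  /-- numerator of the gain -/
  gain : ℕ
  /-- numerator of the lower bound of the sum of the functionals -/
  low : ℕ
  /-- scale of the orbit sums -/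
  scale : ℕ
  /-- orbit sums of the linearised functionals -/
  orbit : Fin 2 → List Term
  /-- subdivisions for the inequality -/
  keyTree : Fin 2 → List Tree
  /-- subdivisions for the upper linearisation -/
  surTree : Fin 2 → List Tree
  /-- subdivisions for the conditions on one posterior -/
  oneTree : List Tree
  /-- packing width of the identity check -/
  idBits : ℕ
  /-- packing width of the positivity checks -/
  posBits : ℕ

/-- Value of one-posterior terms. -/
noncomputable def ev1 (L : List Term) (l : ℝ) (p : Fin 3 → ℝ) : ℝ :=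
  evT L l (6 * pS p) (6 * pC p) 1 1

variable (B : Data)

/-- The functionals of the posterior. -/
noncomputable def phiR (k : Fin 2) (p : Fin 3 → ℝ) : ℝ := ev1 (B.phi k) 1 p / B.den

/-- The functionals of an atom. -/
noncomputable def fL (k : Fin 2) (x : Fin 3 → ℝ) : ℝ := mass x / 3 * phiR B k (post x)

/-- Weight of the other functional of the rest, up to `l^2`. -/
noncomputable def pwR (k : Fin 2) (w : Fin 3 → ℝ) : ℝ := ev1 (B.pw k) 1 w / B.wden

/-- Weight of the other functional of the child. -/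
noncomputable def qwR (k : Fin 2) (l : ℝ) (b : Fin 3 → ℝ) : ℝ := ev1 (B.qw k) l b / B.wden

/-- The multiplier of the condition. -/
noncomputable def multR (w : Fin 3 → ℝ) : ℝ := ev1 B.mult 1 w / B.wden

/-- The multiplier as a functional of an atom. -/
noncomputable def gL (x : Fin 3 → ℝ) : ℝ := mass x / 3 * multR B (post x)

/-- The threshold of the condition. -/
noncomputable def x0 : ℝ := (B.xn : ℝ) / B.xd

/-- One term of the lifted part: the exact first order at `d = 1`. -/
noncomputable def liftVal (t : Term) (z : Fin 3 → ℝ) : ℝ :=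
  let d := z 0 + z 1 + z 2
  let e2 := z 0 * z 1 + z 0 * z 2 + z 1 * z 2
  let e3 := z 0 * z 1 * z 2
  (t.c : ℝ) * (6 * d ^ 2 - 18 * e2) ^ t.i * (6 * d ^ 3 - 27 * d * e2 + 81 * e3) ^ t.j
    * (((2 * t.i + 3 * t.j : ℕ) : ℝ) - (((2 * t.i + 3 * t.j : ℕ) : ℝ) - 1) * d)

/-- One term of the correction. -/
noncomputable def remVal (t : Term) (z : Fin 3 → ℝ) : ℝ :=
  let d := z 0 + z 1 + z 2
  let e2 := z 0 * z 1 + z 0 * z 2 + z 1 * z 2
  let e3 := z 0 * z 1 * z 2
  (t.c : ℝ) * (d - 1) ^ t.e * e2 ^ t.i * e3 ^ t.j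

/-- Polynomial upper bound for `d φ (z/d)`, `d = ∑ z`. -/
noncomputable def uR (k : Fin 2) (z : Fin 3 → ℝ) : ℝ :=
  (((B.phi k).map fun t => liftVal t z).sum
    + (z 0 + z 1 + z 2 - 1) ^ 2 * ((B.rem k).map fun t => remVal t z).sum) / B.den

/-- Everything a checked band gives pointwise. -/
structure Sound : Prop where
  den_pos : 0 < B.den
  wden_pos : 0 < B.wden
  xd_pos : 0 < B.xd
  gain_pos : 0 < B.gain
  low_pos : 0 < B.low
  band : -(B.q : ℤ) ≤ 2 * B.lo ∧ B.hi ≤ 0
  upper : ∀ (k : Fin 2) (l : ℝ) (w b : Fin 3 → ℝ) (s : Fin 6), (B.lo : ℝ) / B.q ≤ l → l < 0 →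
    Simp w → Simp b → 0 < mass (zz l w b s) →
      mass (zz l w b s) * phiR B k (post (zz l w b s)) ≤ uR B k (zz l w b s)
  upper_zero : ∀ (k : Fin 2) (l : ℝ) (w b : Fin 3 → ℝ) (s : Fin 6), (B.lo : ℝ) / B.q ≤ l → l < 0 →
    Simp w → Simp b → mass (zz l w b s) = 0 → 0 ≤ uR B k (zz l w b s)
  key : ∀ (k : Fin 2) (l : ℝ) (w b : Fin 3 → ℝ), (B.lo : ℝ) / B.q ≤ l → l < (B.hi : ℝ) / B.q →
    Simp w → Simp b →
    (∑ s : Fin 6, uR B k (zz l w b s)) / 6 - phiR B k b
      ≤ l ^ 2 * (pwR B k w * (phiR B (oth k) b - phiR B k b)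
          + ((1 - qwR B k l b) * phiR B k w + qwR B k l b * phiR B (oth k) w)
          + (pS b ^ 2 - x0 B) * multR B w - (B.gain : ℝ) / B.wden * pS w ^ 2)
  pw_mem : ∀ (k : Fin 2) (l : ℝ) (w : Fin 3 → ℝ), (B.lo : ℝ) / B.q ≤ l → l < 0 → Simp w →
    0 ≤ pwR B k w ∧ l ^ 2 * pwR B k w ≤ 1
  qw_mem : ∀ (k : Fin 2) (l : ℝ) (b : Fin 3 → ℝ), (B.lo : ℝ) / B.q ≤ l → l < (B.hi : ℝ) / B.q →
    Simp b → 0 ≤ qwR B k l b ∧ qwR B k l b ≤ 1
  mult_mem : ∃ C : ℝ, ∀ w : Fin 3 → ℝ, Simp w → 0 ≤ multR B w ∧ multR B w ≤ C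
  lower : ∀ p : Fin 3 → ℝ, Simp p → (B.low : ℝ) / B.den * pS p ≤ phiR B 0 p + phiR B 1 p
  upper_bd : ∃ C : ℝ, ∀ (k : Fin 2) (p : Fin 3 → ℝ), Simp p → phiR B k p ≤ C
  unit : ∀ k, phiR B k (fun _ => 1 / 3) = 0

end Vale.Agent.P154.Neg.Band
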