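import Vale.Agent.P154.Neg.Band.Pos

/-!
# P154: a band that passes the check is sound
-/

namespace Vale.Agent.P154.Neg.Band

open Large Finset

variable {B : Data}

lemma ev1_bound (L : List Term) :
    ∃ C, ∀ p : Fin 3 → ℝ, Simp p → ev1 L 1 p ≤ C := by
  induction L with
  | nil => exact ⟨0, fun p _ => by simp [ev1]⟩
  | cons t L ih =>
    obtain ⟨C, hC⟩ := ih
    refine ⟨|(t.c : ℝ)| * (6 ^ t.i * 6 ^ t.j) + C, fun p hp => ?_⟩
    have := hC p hp
    simp only [ev1, evT_cons] at this ⊢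
    refine add_le_add ?_ this
    refine (le_abs_self _).trans ?_
    have h0 := pS_nonneg p
    have h1 := pS_le_one hp
    have hc : |pC p| ≤ 1 := abs_le_of_sq_le_sq ((pC_sq_le hp).trans (by
      simpa using pow_le_one₀ h0 h1)) zero_le_one
    simp only [Term.val, one_pow, mul_one, abs_mul, abs_pow]
    refine mul_le_mul_of_nonneg_left (mul_le_mul ?_ ?_ ?_ ?_) (abs_nonneg _)
    · refine pow_le_pow_left₀ (by positivity) ?_ _
      rw [abs_of_nonneg h0]
      norm_num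
      linarith
    · refine pow_le_pow_left₀ (by positivity) ?_ _
      norm_num
      linarith
    · positivity
    · positivity

/-- The uniform posterior. -/
lemma simp_unif : Simp (fun _ => (1 / 3 : ℝ)) :=
  ⟨fun _ => by norm_num, by norm_num⟩

lemma posOne_nonneg {L : List Term} (h : posOne B L = true) {l : ℝ}
    (h0 : (B.lo : ℝ) / B.q ≤ l) (h1 : l < (B.hi : ℝ) / B.q) {p : Fin 3 → ℝ} (hp : Simp p) :
    0 ≤ ev1 L l p := by
  simp only [posOne, Bool.and_eq_true, List.all_eq_true, beq_iff_eq] at h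
  have := posList_nonneg h.2 h0 h1 hp hp
  rwa [evT_flat _ _ _ _ _ h.1] at this

lemma ev1_plain {L : List Term} (h : ∀ t ∈ L, t.e = 0 ∧ t.m = 0 ∧ t.n = 0) (l : ℝ)
    (p : Fin 3 → ℝ) : ev1 L l p = ev1 L 1 p :=
  evT_plain l _ _ _ _ h

/-- The elementary conditions, as propositions. -/
structure Shape (B : Data) : Prop where
  q0 : 0 < B.q
  den0 : 0 < B.den
  wden0 : 0 < B.wden
  xd0 : 0 < B.xd
  gain0 : 0 < B.gain
  low0 : 0 < B.low
  scale0 : 0 < B.scale
  half : -(B.q : ℤ) ≤ 2 * B.lo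
  hi0 : B.hi ≤ 0
  lohi : B.lo < B.hi
  phi0 : ∀ k, ∀ t ∈ B.phi k, hasChild t = true ∧ t.e = 0 ∧ t.m = 0 ∧ t.n = 0
  rem0 : ∀ k, ∀ t ∈ B.rem k, t.i ≤ 4 ∧ t.j ≤ 2
  pw0 : ∀ k, ∀ t ∈ B.pw k, t.e = 0 ∧ t.m = 0 ∧ t.n = 0
  qw0 : ∀ k, ∀ t ∈ B.qw k, t.m = 0 ∧ t.n = 0
  orbit0 : ∀ k, ∀ t ∈ B.orbit k, t.e = 0
  base : ∀ k, (B.orbit k).filter (fun t => !hasChild t)
    = tscale (6 * B.scale) (toRest (B.phi k))
  mult0 : ∀ t ∈ B.mult, t.e = 0 ∧ t.m = 0 ∧ t.n = 0

lemma shape_of (h : shapeOk B = true) : Shape B := by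
  simp only [shapeOk, Bool.and_eq_true, decide_eq_true_eq, List.all_eq_true, beq_iff_eq] at h
  obtain ⟨⟨⟨⟨⟨⟨⟨⟨⟨⟨a1, a2⟩, a3⟩, a4⟩, a5⟩, a6⟩, a7⟩, a8⟩, a9⟩, a10⟩, hk⟩ := h
  have hk' := fun k => hk k (List.mem_finRange k)
  exact {
    q0 := a1, den0 := a2, wden0 := a3, xd0 := a4, gain0 := a5, low0 := a6, scale0 := a7,
    half := a8, hi0 := a9, lohi := a10,
    phi0 := fun k t ht =>
      have h := (hk' k).1.1.1.1.1.1 t ht
      ⟨h.1.1.1, h.1.1.2, h.1.2, h.2⟩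
    rem0 := fun k => (hk' k).1.1.1.1.1.2
    pw0 := fun k t ht =>
      have h := (hk' k).1.1.1.1.2 t ht
      ⟨h.1.1, h.1.2, h.2⟩
    qw0 := fun k => (hk' k).1.1.1.2
    orbit0 := fun k => (hk' k).1.1.2
    base := fun k => sameTerms_eq _ _ (hk' k).1.2
    mult0 := fun t ht =>
      have h := (hk' 0).2 t ht
      ⟨h.1.1, h.1.2, h.2⟩ }

namespace Shape

variable (hs : Shape B)
include hs

lemma qpos : (0 : ℝ) < B.q := by exact_mod_cast hs.q0

lemma lo_lt : (B.lo : ℝ) / B.q < (B.hi : ℝ) / B.q :=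
  div_lt_div_of_pos_right (by exact_mod_cast hs.lohi) hs.qpos

lemma half_le : -1 / 2 ≤ (B.lo : ℝ) / B.q := by
  have : -(B.q : ℝ) ≤ 2 * (B.lo : ℝ) := by exact_mod_cast hs.half
  rw [div_le_div_iff₀ two_pos hs.qpos]
  linarith

lemma phi_flat (k : Fin 2) : ∀ t ∈ B.phi k, t.e = 0 ∧ t.m = 0 ∧ t.n = 0 :=
  fun t ht => (hs.phi0 k t ht).2

lemma phi_val (k : Fin 2) (l : ℝ) (p : Fin 3 → ℝ) (C D : ℝ) :
    evT (B.phi k) l (6 * pS p) (6 * pC p) C D = B.den * phiR B k p := by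
  have hd : (B.den : ℝ) ≠ 0 := by exact_mod_cast hs.den0.ne'
  rw [evT_plain l _ _ _ _ (hs.phi_flat k), phiR, ev1, mul_div_cancel₀ _ hd]

lemma pw_val (k : Fin 2) (l : ℝ) (p : Fin 3 → ℝ) (C D : ℝ) :
    evT (B.pw k) l (6 * pS p) (6 * pC p) C D = B.wden * pwR B k p := by
  have hd : (B.wden : ℝ) ≠ 0 := by exact_mod_cast hs.wden0.ne'
  rw [evT_plain l _ _ _ _ (hs.pw0 k), pwR, ev1, mul_div_cancel₀ _ hd]

lemma qw_val (k : Fin 2) (l : ℝ) (p : Fin 3 → ℝ) (C D : ℝ) :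
    evT (B.qw k) l (6 * pS p) (6 * pC p) C D = B.wden * qwR B k l p := by
  have hd : (B.wden : ℝ) ≠ 0 := by exact_mod_cast hs.wden0.ne'
  rw [evT_flat l _ _ _ _ (hs.qw0 k), qwR, ev1, mul_div_cancel₀ _ hd]

lemma mult_val (l : ℝ) (p : Fin 3 → ℝ) (C D : ℝ) :
    evT B.mult l (6 * pS p) (6 * pC p) C D = B.wden * multR B p := by
  have hd : (B.wden : ℝ) ≠ 0 := by exact_mod_cast hs.wden0.ne'
  rw [evT_plain l _ _ _ _ hs.mult0, multR, ev1, mul_div_cancel₀ _ hd]

end Shape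

/-- The right-hand side over the square of the edge. -/
noncomputable def rhsR (B : Data) (k : Fin 2) (l : ℝ) (w b : Fin 3 → ℝ) : ℝ :=
  pwR B k w * (phiR B (oth k) b - phiR B k b)
    + ((1 - qwR B k l b) * phiR B k w + qwR B k l b * phiR B (oth k) w)
    + (pS b ^ 2 - x0 B) * multR B w - (B.gain : ℝ) / B.wden * pS w ^ 2

lemma evT_xTerms (hs : Shape B) (k : Fin 2) (l : ℝ) (w b : Fin 3 → ℝ) :
    evT (xTerms B k) l (6 * pS w) (6 * pC w) (6 * pS b) (6 * pC b)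
      = 36 * B.wden * B.den * B.xd * rhsR B k l w b := by
  have hw : (B.wden : ℝ) ≠ 0 := by exact_mod_cast hs.wden0.ne'
  have hx : (B.xd : ℝ) ≠ 0 := by exact_mod_cast hs.xd0.ne'
  simp only [xTerms, dPhi, evT_append, evT_tmul, evT_tscale, evT_toRest, hs.phi_val, hs.pw_val,
    hs.qw_val, hs.mult_val, rhsR, x0]
  simp [Term.val]
  field_simp
  ring

lemma uEx_val (k : Fin 2) (z : Fin 3 → Kron.Ex) (x : Fin 4 → ℝ) (hd : 0 < B.den) :
    (uEx B k z).evR x = B.den * uR B k (fun i => (z i).evR x) := by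
  have hd' : (B.den : ℝ) ≠ 0 := by exact_mod_cast hd.ne'
  rw [uR, mul_div_cancel₀ _ hd']
  simp only [uEx, Kron.Ex.evR, evR_sumEx, List.map_map, Function.comp_def]
  congr 1
  · refine congrArg List.sum (List.map_congr_left fun t _ => ?_)
    simp [liftEx, liftVal, Kron.Ex.evR]
    ring
  · congr 1
    · push_cast; ring
    · refine congrArg List.sum (List.map_congr_left fun t _ => ?_)
      simp [remEx, remVal, Kron.Ex.evR]
      ring

lemma key_of (hs : Shape B) (k : Fin 2) (hi : idOk B k = true) (hk : keyOk B k = true) {l : ℝ}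
    (h0 : (B.lo : ℝ) / B.q ≤ l) (h1 : l < (B.hi : ℝ) / B.q) {w b : Fin 3 → ℝ} (hw : Simp w)
    (hb : Simp b) :
    (∑ s : Fin 6, uR B k (zz l w b s)) / 6 - phiR B k b ≤ l ^ 2 * rhsR B k l w b := by
  have hg := posList_nonneg hk h0 h1 hw hb
  rw [gTerms, evT_append, evT_tscale, evT_tscale, evT_xTerms hs] at hg
  set a := shrink l w with ha
  set x : Fin 4 → ℝ := ![a 0, a 1, b 0, b 1] with hx
  have hid := Kron.zero_of_testZero hi x
  have ha2 : a 2 = 1 - a 0 - a 1 := by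
    simp only [ha, shrink]; linear_combination l * hw.2
  have hb2 : b 2 = 1 - b 0 - b 1 := by linarith [hb.2]
  have eA : ∀ i, (aEx i).evR x = a i := fun i => by
    fin_cases i <;> simp [aEx, Kron.Ex.evR, hx, ha2] <;> ring
  have eB : ∀ i, (bEx i).evR x = b i := fun i => by
    fin_cases i <;> simp [bEx, Kron.Ex.evR, hx, hb2] <;> ring
  have ez : ∀ s, (fun i => (zEx s i).evR x) = zz l w b s := fun s => funext fun i => by
    simp [zEx, Kron.Ex.evR, eA, eB, zz, tab6_eq, ha, shrink]; ring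
  have eS : ∀ (p : Fin 3 → ℝ) (e : Fin 3 → Kron.Ex), (∀ i, (e i).evR x = p i) →
      (s6Ex e).evR x = 6 * pS p ∧ (c6Ex e).evR x = 6 * pC p := by
    intro p e he
    simp [s6Ex, c6Ex, devEx, Kron.Ex.evR, he, pS, pC, Fin.sum_univ_three]
    constructor <;> ring
  obtain ⟨sa, ca⟩ := eS a aEx eA
  obtain ⟨sb, cb⟩ := eS b bEx eB
  have ev : ∀ L : List Term, (∀ t ∈ L, t.e = 0) → (sumEx (L.map vtermEx)).evR x
      = evT L 1 (6 * pS a) (6 * pC a) (6 * pS b) (6 * pC b) := by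
    intro L
    induction L with
    | nil => intro _; simp [sumEx, Kron.Ex.evR]
    | cons t L ih =>
      intro hL
      simp only [List.map_cons, sumEx, Kron.Ex.evR, evT_cons, vtermEx, sa, ca, sb, cb, Term.val,
        hL t List.mem_cons_self, pow_zero, mul_one, ih fun s hs => hL s (List.mem_cons_of_mem _ hs)]
      ring
  simp only [idEx, Kron.Ex.evR, evR_sumEx, List.map_map, Function.comp_def, uEx_val k _ _ hs.den0,
    ez, ev _ (hs.orbit0 k)] at hid
  rw [← List.ofFn_eq_map, List.sum_ofFn, ← Finset.mul_sum] at hid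
  rw [ha, pS_shrink, pC_shrink, show (6 : ℝ) * (l ^ 2 * pS w) = l ^ 2 * (6 * pS w) by ring,
    show (6 : ℝ) * (l ^ 3 * pC w) = l ^ 3 * (6 * pC w) by ring,
    evT_shift l _ _ _ _ _ (hs.orbit0 k), hs.base k, evT_tscale, evT_toRest, hs.phi_val] at hid
  push_cast at hg hid
  have hW : (0 : ℝ) < B.wden := by exact_mod_cast hs.wden0
  have hD : (0 : ℝ) < B.den := by exact_mod_cast hs.den0
  have hX : (0 : ℝ) < B.xd := by exact_mod_cast hs.xd0
  have hS : (0 : ℝ) < B.scale := by exact_mod_cast hs.scale0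
  have hpos : 0 < 36 * (B.wden : ℝ) * B.xd * (6 * B.scale * B.den) := by positivity
  refine sub_nonneg.1 (nonneg_of_mul_nonneg_right ?_ hpos)
  refine (mul_nonneg (sq_nonneg l) hg).trans (le_of_eq ?_)
  linear_combination (36 * (B.wden : ℝ) * B.xd) * hid

lemma lift_tel (d : ℝ) : ∀ m : ℕ, d ^ (m + 1) * ((m + 1 : ℝ) - m * d)
    + (d - 1) ^ 2 * ((List.range m).map fun r : ℕ => ((r : ℝ) + 1) * d ^ (r + 1)).sum = d
  | 0 => by simp
  | m + 1 => by
    have h := lift_tel d m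
    rw [List.range_succ, List.map_append, List.sum_append]
    simp only [List.map_cons, List.map_nil, List.sum_cons, List.sum_nil]
    push_cast
    linear_combination h

lemma e_val {p : Fin 3 → ℝ} (hp : Simp p) :
    18 * (p 0 * p 1 + p 0 * p 2 + p 1 * p 2) = 6 - 6 * pS p ∧
      162 * (p 0 * p 1 * p 2) = 6 - 3 * (6 * pS p) + 2 * (6 * pC p) := by
  have e : p 2 = 1 - p 0 - p 1 := by linarith [hp.2]
  simp only [pS, pC, Fin.sum_univ_three, e]
  constructor <;> ring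

lemma evT_rem (t : Term) (hi : t.i ≤ 4) (hj : t.j ≤ 2) {p : Fin 3 → ℝ} (hp : Simp p) (d C D : ℝ) :
    evT (tscale (t.c * (18 ^ (4 - t.i) * 162 ^ (2 - t.j) : ℕ))
        (tmul (tmul (tpow [⟨1, 1, 0, 0, 0, 0⟩, ⟨-1, 0, 0, 0, 0, 0⟩] t.e)
            [⟨1, 2 * t.i + 3 * t.j, 0, 0, 0, 0⟩])
          (tmul (tpow [⟨6, 0, 0, 0, 0, 0⟩, ⟨-1, 0, 1, 0, 0, 0⟩] t.i)
            (tpow [⟨6, 0, 0, 0, 0, 0⟩, ⟨-3, 0, 1, 0, 0, 0⟩, ⟨2, 0, 0, 1, 0, 0⟩] t.j))))
      d (6 * pS p) (6 * pC p) C D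
      = (18 : ℝ) ^ 4 * 162 ^ 2 * remVal t (fun i => d * p i) := by
  obtain ⟨he2, he3⟩ := e_val hp
  obtain ⟨a, ha⟩ := Nat.exists_eq_add_of_le hi
  obtain ⟨c, hc⟩ := Nat.exists_eq_add_of_le hj
  have h1 : 4 - t.i = a := by omega
  have h2 : 2 - t.j = c := by omega
  simp only [evT_tscale, evT_tmul, evT_tpow, h1, h2]
  simp only [evT_cons, evT_nil, Term.val, pow_zero, pow_one, mul_one, one_mul, add_zero]
  push_cast
  rw [show (6 : ℝ) + -1 * (6 * pS p) = 18 * (p 0 * p 1 + p 0 * p 2 + p 1 * p 2) by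
      linear_combination -he2,
    show (6 : ℝ) + (-3 * (6 * pS p) + 2 * (6 * pC p)) = 162 * (p 0 * p 1 * p 2) by
      linear_combination -he3,
    show (18 : ℝ) ^ 4 = 18 ^ t.i * 18 ^ a by rw [← pow_add, ← ha],
    show (162 : ℝ) ^ 2 = 162 ^ t.j * 162 ^ c by rw [← pow_add, ← hc]]
  simp only [remVal]
  rw [show d * p 0 + d * p 1 + d * p 2 = d by linear_combination d * hp.2,
    show d * p 0 * (d * p 1) + d * p 0 * (d * p 2) + d * p 1 * (d * p 2)
      = d ^ 2 * (p 0 * p 1 + p 0 * p 2 + p 1 * p 2) by ring,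
    show d * p 0 * (d * p 1) * (d * p 2) = d ^ 3 * (p 0 * p 1 * p 2) by ring,
    mul_pow (18 : ℝ), mul_pow (162 : ℝ), mul_pow (d ^ 2), mul_pow (d ^ 3), ← pow_mul, ← pow_mul,
    pow_add d (2 * t.i)]
  ring

lemma evT_lift (t : Term) (ht : hasChild t = true) {p : Fin 3 → ℝ} (hp : Simp p) (d C D : ℝ) :
    (d - 1) ^ 2 * evT ((List.range (2 * t.i + 3 * t.j - 1)).map fun r =>
        ⟨-(t.c * ((18 ^ 4 * 162 ^ 2 : ℕ) : ℤ) * ((r + 1 : ℕ) : ℤ)), r + 1, t.i, t.j, 0, 0⟩)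
      d (6 * pS p) (6 * pC p) C D
      = (18 : ℝ) ^ 4 * 162 ^ 2 * (liftVal t (fun i => d * p i)
          - d * ((t.c : ℝ) * (6 * pS p) ^ t.i * (6 * pC p) ^ t.j)) := by
  have hn : 2 ≤ 2 * t.i + 3 * t.j := by
    simp [hasChild] at ht
    omega
  obtain ⟨m, hm⟩ := Nat.exists_eq_add_of_le (show 1 ≤ 2 * t.i + 3 * t.j by omega)
  have hsub : 2 * t.i + 3 * t.j - 1 = m := by omega
  have hsum : ∀ k : ℕ, evT ((List.range k).map fun r =>
      (⟨-(t.c * ((18 ^ 4 * 162 ^ 2 : ℕ) : ℤ) * ((r + 1 : ℕ) : ℤ)), r + 1, t.i, t.j, 0, 0⟩ : Term))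
      d (6 * pS p) (6 * pC p) C D
      = -((t.c : ℝ) * (18 ^ 4 * 162 ^ 2) * ((6 * pS p) ^ t.i * (6 * pC p) ^ t.j))
          * ((List.range k).map fun r : ℕ => ((r : ℝ) + 1) * d ^ (r + 1)).sum := by
    intro k
    induction k with
    | zero => simp
    | succ k ih =>
      rw [List.range_succ, List.map_append, evT_append, ih, List.map_append, List.sum_append]
      simp [Term.val]
      ring
  rw [hsub, hsum]
  obtain ⟨he2, he3⟩ := e_val hp
  simp only [liftVal]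
  rw [show d * p 0 + d * p 1 + d * p 2 = d by linear_combination d * hp.2,
    show 6 * d ^ 2 - 18 * (d * p 0 * (d * p 1) + d * p 0 * (d * p 2) + d * p 1 * (d * p 2))
      = d ^ 2 * (6 * pS p) by linear_combination -d ^ 2 * he2,
    show 6 * d ^ 3 - 27 * d * (d * p 0 * (d * p 1) + d * p 0 * (d * p 2) + d * p 1 * (d * p 2))
        + 81 * (d * p 0 * (d * p 1) * (d * p 2)) = d ^ 3 * (6 * pC p) by
      linear_combination (-(3 : ℝ) / 2 * d ^ 3) * he2 + (d ^ 3 / 2) * he3,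
    mul_pow (d ^ 2), mul_pow (d ^ 3), ← pow_mul, ← pow_mul]
  have hp' : d ^ (2 * t.i) * d ^ (3 * t.j) = d ^ (m + 1) := by
    rw [← pow_add, hm, add_comm m 1]
  have hc : ((2 * t.i + 3 * t.j : ℕ) : ℝ) = (m : ℝ) + 1 := by
    rw [hm]; push_cast; ring
  have := lift_tel d m
  rw [hc]
  linear_combination (-((t.c : ℝ) * (18 ^ 4 * 162 ^ 2) * ((6 * pS p) ^ t.i * (6 * pC p) ^ t.j))) * this
    - ((t.c : ℝ) * (18 ^ 4 * 162 ^ 2) * ((6 * pS p) ^ t.i * (6 * pC p) ^ t.j)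
        * ((m : ℝ) + 1 - m * d)) * hp'

lemma sur_of (hs : Shape B) (k : Fin 2) (h : surOk B k = true) {d : ℝ}
    (h0 : 1 + 2 * ((B.lo : ℝ) / B.q) ≤ d) (h1 : d ≤ 1 - (B.lo : ℝ) / B.q) {p : Fin 3 → ℝ}
    (hp : Simp p) : d * phiR B k p ≤ uR B k (fun i => d * p i) := by
  simp only [surOk, Bool.and_eq_true, List.all_eq_true, beq_iff_eq] at h
  have hq := hs.qpos
  have hd0 : (((B.q : ℤ) + 2 * B.lo : ℤ) : ℝ) / B.q ≤ d := by
    refine le_trans (le_of_eq ?_) h0
    push_cast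
    field_simp
  have hd1 : d < (((B.q : ℤ) - B.lo + 1 : ℤ) : ℝ) / B.q := by
    refine lt_of_le_of_lt h1 ?_
    rw [lt_div_iff₀ hq]
    push_cast
    field_simp
    linarith
  have hg := posList_nonneg h.2 hd0 hd1 hp hp
  rw [surTerms, evT_append] at hg
  set C := 6 * pS p with hC
  set D := 6 * pC p with hD
  have hrem : ∀ L : List Term, (∀ t ∈ L, t.i ≤ 4 ∧ t.j ≤ 2) →
      evT (L.flatMap fun t => tscale (t.c * (18 ^ (4 - t.i) * 162 ^ (2 - t.j) : ℕ))
          (tmul (tmul (tpow [⟨1, 1, 0, 0, 0, 0⟩, ⟨-1, 0, 0, 0, 0, 0⟩] t.e)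
              [⟨1, 2 * t.i + 3 * t.j, 0, 0, 0, 0⟩])
            (tmul (tpow [⟨6, 0, 0, 0, 0, 0⟩, ⟨-1, 0, 1, 0, 0, 0⟩] t.i)
              (tpow [⟨6, 0, 0, 0, 0, 0⟩, ⟨-3, 0, 1, 0, 0, 0⟩, ⟨2, 0, 0, 1, 0, 0⟩] t.j))))
        d C D C D = (18 : ℝ) ^ 4 * 162 ^ 2 * (L.map fun t => remVal t (fun i => d * p i)).sum := by
    intro L
    induction L with
    | nil => simp
    | cons t L ih =>
      intro hL
      rw [List.flatMap_cons, evT_append, ih fun s hs => hL s (List.mem_cons_of_mem _ hs), hC, hD,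
        evT_rem t (hL t List.mem_cons_self).1 (hL t List.mem_cons_self).2 hp, List.map_cons,
        List.sum_cons, mul_add]
  have hlift : ∀ L : List Term, (∀ t ∈ L, hasChild t = true ∧ t.e = 0 ∧ t.m = 0 ∧ t.n = 0) →
      (d - 1) ^ 2 * evT (L.flatMap fun t => (List.range (2 * t.i + 3 * t.j - 1)).map fun r =>
          ⟨-(t.c * ((18 ^ 4 * 162 ^ 2 : ℕ) : ℤ) * ((r + 1 : ℕ) : ℤ)), r + 1, t.i, t.j, 0, 0⟩)
        d C D C D
        = (18 : ℝ) ^ 4 * 162 ^ 2 * ((L.map fun t => liftVal t (fun i => d * p i)).sum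
          - d * evT L 1 C D 1 1) := by
    intro L
    induction L with
    | nil => simp
    | cons t L ih =>
      intro hL
      rw [List.flatMap_cons, evT_append, mul_add, ih fun s hs => hL s (List.mem_cons_of_mem _ hs),
        hC, hD, evT_lift t (hL t List.mem_cons_self).1 hp, List.map_cons, List.sum_cons, evT_cons]
      simp only [Term.val, one_pow, mul_one]
      ring
  rw [hrem _ (hs.rem0 k)] at hg
  have e := hlift _ (hs.phi0 k)
  have hden : (0 : ℝ) < B.den := by exact_mod_cast hs.den0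
  have hm : d * p 0 + d * p 1 + d * p 2 = d := by linear_combination d * hp.2
  rw [uR, phiR, ev1, ← hC, ← hD, mul_div_assoc', div_le_div_iff_of_pos_right hden, hm]
  have := mul_nonneg (sq_nonneg (d - 1)) hg
  rw [mul_add, e] at this
  refine le_of_mul_le_mul_left ?_ (show (0 : ℝ) < 18 ^ 4 * 162 ^ 2 by norm_num)
  linarith

lemma zz_range (hs : Shape B) {l : ℝ} (h0 : (B.lo : ℝ) / B.q ≤ l) (h1 : l < 0)
    {w b : Fin 3 → ℝ} (hw : Simp w) (hb : Simp b) (s : Fin 6) :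
    (∀ i, 0 ≤ zz l w b s i) ∧ 1 + 2 * ((B.lo : ℝ) / B.q) ≤ mass (zz l w b s) ∧
      mass (zz l w b s) ≤ 1 - (B.lo : ℝ) / B.q := by
  have hh := hs.half_le
  obtain ⟨hb0, hb1⟩ := hb
  obtain ⟨hw0, hw1⟩ := hw
  have hwle : ∀ i, w i ≤ 1 := fun i => by fin_cases i <;> simp <;> linarith [hw0 0, hw0 1, hw0 2]
  have hsum : b (perm6 s 0) + b (perm6 s 1) + b (perm6 s 2) = 1 := by
    rw [← hb1, ← Fin.sum_univ_three (fun i => b (perm6 s i)), Equiv.sum_comp (perm6 s) b,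
      Fin.sum_univ_three]
  refine ⟨fun i => ?_, ?_, ?_⟩
  · refine mul_nonneg ?_ (hb0 _)
    have := mul_nonneg_of_nonpos_of_nonpos h1.le (sub_nonpos.2 (hwle i))
    linarith
  all_goals
    have e : mass (zz l w b s) = 1 - l
        + 3 * l * (w 0 * b (perm6 s 0) + w 1 * b (perm6 s 1) + w 2 * b (perm6 s 2)) := by
      simp only [mass, zz]
      linear_combination (1 - l) * hsum
    have hA : 0 ≤ w 0 * b (perm6 s 0) + w 1 * b (perm6 s 1) + w 2 * b (perm6 s 2) := by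
      have := mul_nonneg (hw0 0) (hb0 (perm6 s 0))
      have := mul_nonneg (hw0 1) (hb0 (perm6 s 1))
      have := mul_nonneg (hw0 2) (hb0 (perm6 s 2))
      linarith
    have hA1 : w 0 * b (perm6 s 0) + w 1 * b (perm6 s 1) + w 2 * b (perm6 s 2) ≤ 1 := by
      have := mul_le_of_le_one_left (hb0 (perm6 s 0)) (hwle 0)
      have := mul_le_of_le_one_left (hb0 (perm6 s 1)) (hwle 1)
      have := mul_le_of_le_one_left (hb0 (perm6 s 2)) (hwle 2)
      linarith
  · nlinarith [mul_nonneg_of_nonpos_of_nonpos h1.le (sub_nonpos.2 hA1)]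
  · nlinarith [mul_nonpos_of_nonpos_of_nonneg h1.le hA]

/-- A band passing the check gives everything the step needs. -/
theorem sound_of_check (B : Data) (h : check B = true) : Sound B := by
  simp only [check, sideOk, Bool.and_eq_true, List.all_eq_true] at h
  obtain ⟨⟨hsh, hmult, hlow⟩, hk⟩ := h
  have hs := shape_of hsh
  have hk' := fun k => hk k (List.mem_finRange k)
  have hq := hs.qpos
  have hlh := hs.lo_lt
  have hhi : (B.hi : ℝ) / B.q ≤ 0 := div_nonpos_of_nonpos_of_nonneg (by exact_mod_cast hs.hi0) hq.le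
  have hW : (0 : ℝ) < B.wden := by exact_mod_cast hs.wden0
  have hD : (0 : ℝ) < B.den := by exact_mod_cast hs.den0
  constructor
  · exact hs.den0
  · exact hs.wden0
  · exact hs.xd0
  · exact hs.gain0
  · exact hs.low0
  · exact ⟨hs.half, hs.hi0⟩
  · intro k l w b s h0 h1 hw hb hpos
    obtain ⟨hn, hlo, hup⟩ := zz_range hs h0 h1 hw hb s
    have hp : Simp (post (zz l w b s)) := by
      refine ⟨fun i => div_nonneg (hn i) hpos.le, ?_⟩
      simp only [post, ← add_div]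
      exact div_self hpos.ne'
    have := sur_of hs k (hk' k).1.2 hlo hup hp
    have e : (fun i => mass (zz l w b s) * post (zz l w b s) i) = zz l w b s :=
      funext fun i => mul_div_cancel₀ _ hpos.ne'
    rwa [e] at this
  · intro k l w b s h0 h1 hw hb hz
    obtain ⟨hn, hlo, hup⟩ := zz_range hs h0 h1 hw hb s
    have := sur_of hs k (hk' k).1.2 hlo hup simp_unif
    rw [hz, zero_mul] at this
    have e : zz l w b s = fun i => 0 * (fun _ : Fin 3 => (1 / 3 : ℝ)) i := funext fun i => by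
      simp only [zero_mul]
      simp only [mass] at hz
      fin_cases i <;> simp <;> linarith [hn 0, hn 1, hn 2]
    rwa [e]
  · intro k l w b h0 h1 hw hb
    exact key_of hs k (hk' k).1.1.1 (hk' k).1.1.2 h0 h1 hw hb
  · intro k l w h0 h1 hw
    have hr := (hk' k).2
    simp only [rangeOk, Bool.and_eq_true] at hr
    obtain ⟨⟨⟨hp0, hp1⟩, _⟩, _⟩ := hr
    have a := posOne_nonneg hp0 le_rfl hlh hw
    have c := posOne_nonneg hp1 le_rfl hlh hw
    simp only [ev1, hs.pw_val, evT_cons, evT_tscale, Term.val] at a c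
    push_cast at a c
    simp only [pow_zero, mul_one] at c
    have hp : 0 ≤ pwR B k w := by
      rcases le_or_gt 0 (pwR B k w) with h | h
      · exact h
      · nlinarith
    refine ⟨hp, ?_⟩
    have hl2 : l ^ 2 ≤ ((B.lo : ℝ) / B.q) ^ 2 := by nlinarith
    have hc : (B.wden : ℝ) * ((B.lo : ℝ) ^ 2 * pwR B k w) ≤ B.wden * (B.q : ℝ) ^ 2 := by linarith
    refine (mul_le_mul_of_nonneg_right hl2 hp).trans ?_
    rw [div_pow, div_mul_eq_mul_div, div_le_one (by positivity)]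
    exact le_of_mul_le_mul_left hc hW
  · intro k l b h0 h1 hb
    have hr := (hk' k).2
    simp only [rangeOk, Bool.and_eq_true] at hr
    obtain ⟨⟨_, hq0⟩, hq1⟩ := hr
    have a := posOne_nonneg hq0 h0 h1 hb
    have c := posOne_nonneg hq1 h0 h1 hb
    simp only [ev1, hs.qw_val, evT_cons, evT_tscale, Term.val] at a c
    push_cast at a c
    simp only [pow_zero, mul_one] at c
    constructor <;> nlinarith
  · obtain ⟨C, hC⟩ := ev1_bound B.mult
    refine ⟨C / B.wden, fun w hw => ⟨?_, ?_⟩⟩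
    · have a := posOne_nonneg hmult le_rfl hlh hw
      rw [ev1_plain hs.mult0] at a
      exact div_nonneg a hW.le
    · exact div_le_div_of_nonneg_right (hC w hw) hW.le
  · intro p hp
    have a := posOne_nonneg hlow le_rfl hlh hp
    simp only [ev1, evT_cons, evT_tscale, evT_append, hs.phi_val, Term.val] at a
    push_cast at a
    simp only [pow_zero, pow_one, mul_one] at a
    rw [div_mul_eq_mul_div, div_le_iff₀ hD]
    linarith
  · obtain ⟨C0, h0⟩ := ev1_bound (B.phi 0)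
    obtain ⟨C1, h1⟩ := ev1_bound (B.phi 1)
    refine ⟨max C0 C1 / B.den, fun k p hp => div_le_div_of_nonneg_right ?_ hD.le⟩
    fin_cases k
    · exact (h0 p hp).trans (le_max_left _ _)
    · exact (h1 p hp).trans (le_max_right _ _)
  · intro k
    have hS : pS (fun _ : Fin 3 => (1 : ℝ) / 3) = 0 := by simp [pS]
    have hC : pC (fun _ : Fin 3 => (1 : ℝ) / 3) = 0 := by simp [pC]
    simp only [phiR, ev1, hS, hC, mul_zero]
    rw [div_eq_zero_iff]
    left
    refine List.sum_eq_zero fun v hv => ?_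
    obtain ⟨t, ht, rfl⟩ := List.mem_map.1 hv
    have hc := (hs.phi0 k t ht).1
    simp only [hasChild, Bool.not_eq_true', Bool.and_eq_false_iff, beq_eq_false_iff_ne] at hc
    simp only [Term.val]
    rcases hc with h | h <;> simp [zero_pow h]

end Vale.Agent.P154.Neg.Band
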