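import Vale.Agent.P154.Neg.Band.Runs
import Vale.Agent.P154.Neg.Band.Five.Main

/-!
# P154: the threshold of three states for `d ≥ 5` or `λ ≥ -17/38`
-/

namespace Vale.Agent.P154.Neg.Band

open Filter Topology

/-- Above five children a critical or subcritical edge is at least `-17/38`. -/
lemma edge_ge {d l : ℝ} (hc : 5 ≤ d ∨ -17 / 38 ≤ l) (hq : d * l ^ 2 ≤ 1) : -17 / 38 ≤ l := by
  rcases hc with h | h
  · by_contra hn
    rw [not_le] at hn
    nlinarith [mul_le_mul_of_nonneg_right h (sq_nonneg l)]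
  · exact h

/-- Nonreconstruction on regular trees up to the Kesten-Stigum bound. -/
theorem reg_nonrec {d : ℕ} (hd : 2 ≤ d) {l : ℝ} (hl : l ∈ Set.Icc (-1 / 2 : ℝ) 1)
    (hc : 5 ≤ d ∨ -17 / 38 ≤ l) (hq : (d : ℝ) * l ^ 2 ≤ 1) :
    Tendsto (aReg l d) atTop (𝓝 0) := by
  have hlo : -17 / 38 ≤ l := edge_ge (d := (d : ℝ))
    (hc.imp (fun h => by exact_mod_cast h) id) hq
  rcases le_or_gt 0 l with h | h
  · exact P154.reg_nonreconstruction h hl.2 hd hq
  · exact aReg_tendsto hl.1 hl.2 (regLim_of_band Five.sound (le_of_eq Five.threshold.symm)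
      Five.interval.2.ge (Five.interval.1.le.trans hlo) l ⟨le_rfl, h⟩ hq)

/-- Nonreconstruction on Poisson trees up to the Kesten-Stigum bound. -/
theorem gw_nonrec {d : ℝ} (hd : 0 < d) {l : ℝ} (hl : l ∈ Set.Icc (-1 / 2 : ℝ) 1)
    (hc : 5 ≤ d ∨ -17 / 38 ≤ l) (hq : d * l ^ 2 ≤ 1) :
    Tendsto (aGW l d) atTop (𝓝 0) := by
  have hlo := edge_ge hc hq
  rcases le_or_gt 0 l with h | h
  · exact P154.gw_nonreconstruction hd h hl.2 hq
  · exact aGW_tendsto hd.le hl.1 hl.2 (gw_band_lim Five.sound (le_of_eq Five.threshold.symm)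
      Five.interval.2.ge (Five.interval.1.le.trans hlo) h hd hq)

end Vale.Agent.P154.Neg.Band
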