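import Vale.Agent.P154.Neg.Band.Check
import Vale.Agent.P154.Neg.Large.KeyProof

/-!
# P154: what the positivity test of the band checker gives

A term list that passes `posList` is nonnegative on a range of the first variable times two copies of
the simplex.
-/

namespace Vale.Agent.P154.Neg.Band

open Large Finset Filter Topology

section Lists

variable (l A X C D : ℝ)

lemma evT_tscale (c : ℤ) (L : List Term) :
    evT (tscale c L) l A X C D = c * evT L l A X C D := by
  induction L with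
  | nil => simp [tscale]
  | cons t L ih =>
    simp only [tscale, List.map_cons, evT_cons] at ih ⊢
    rw [ih]
    simp [Term.val]
    ring

lemma evT_tmul (L M : List Term) :
    evT (tmul L M) l A X C D = evT L l A X C D * evT M l A X C D := by
  induction L with
  | nil => simp [tmul]
  | cons s L ih =>
    simp only [tmul, List.flatMap_cons, evT_append, evT_cons, add_mul] at ih ⊢
    rw [ih]
    congr 1
    clear ih
    induction M with
    | nil => simp
    | cons t M ih =>
      simp only [List.map_cons, evT_cons, ih, mul_add]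
      simp [Term.val, pow_add]
      ring

lemma evT_tpow (L : List Term) : ∀ n, evT (tpow L n) l A X C D = evT L l A X C D ^ n
  | 0 => by simp [tpow, Term.val]
  | n + 1 => by rw [tpow, evT_tmul, evT_tpow L n, pow_succ, mul_comm]

lemma evT_toRest (L : List Term) : evT (toRest L) l A X C D = evT L l C D 1 1 := by
  induction L with
  | nil => simp [toRest]
  | cons t L ih =>
    simp only [toRest, List.map_cons, evT_cons] at ih ⊢
    rw [ih]
    simp [Term.val]

lemma evT_flat {L : List Term} (h : ∀ t ∈ L, t.m = 0 ∧ t.n = 0) :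
    evT L l A X C D = evT L l A X 1 1 := by
  induction L with
  | nil => simp
  | cons t L ih =>
    obtain ⟨hm, hn⟩ := h t List.mem_cons_self
    simp only [evT_cons, ih fun s hs => h s (List.mem_cons_of_mem _ hs), Term.val, hm, hn]
    simp

lemma evT_plain {L : List Term} (h : ∀ t ∈ L, t.e = 0 ∧ t.m = 0 ∧ t.n = 0) :
    evT L l A X C D = evT L 1 A X 1 1 := by
  induction L with
  | nil => simp
  | cons t L ih =>
    obtain ⟨he, hm, hn⟩ := h t List.mem_cons_self
    simp only [evT_cons, ih fun s hs => h s (List.mem_cons_of_mem _ hs), Term.val, he, hm, hn]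
    simp

lemma evT_ins (t : Term) : ∀ L : List Term,
    evT (ins t L) l A X C D = t.val l A X C D + evT L l A X C D
  | [] => by simp [ins]
  | u :: L => by
    simp only [ins]
    split_ifs with h
    · simp only [Bool.and_eq_true, beq_iff_eq] at h
      obtain ⟨⟨⟨⟨h1, h2⟩, h3⟩, h4⟩, h5⟩ := h
      simp only [evT_cons, Term.val, h1, h2, h3, h4, h5]
      push_cast
      ring
    · simp only [evT_cons, evT_ins t L]
      ring

lemma evT_merge : ∀ L : List Term, evT (merge L) l A X C D = evT L l A X C D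
  | [] => rfl
  | t :: L => by
    have := evT_merge L
    simp only [merge, List.foldr_cons, evT_ins, evT_cons] at this ⊢
    rw [this]

lemma sum_filter_split {α : Type} (p : α → Bool) (f : α → ℝ) : ∀ L : List α,
    ((L.filter p).map f).sum + ((L.filter fun a => !p a).map f).sum = (L.map f).sum
  | [] => by simp
  | a :: L => by
    have := sum_filter_split p f L
    cases h : p a <;> simp [h] <;> linarith

lemma sameTerms_eq : ∀ L M : List Term, sameTerms L M = true → L = M
  | [], [], _ => rfl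
  | [], _ :: _, h => by simp [sameTerms] at h
  | _ :: _, [], h => by simp [sameTerms] at h
  | s :: L, t :: M, h => by
    simp only [sameTerms, Bool.and_eq_true, beq_iff_eq] at h
    obtain ⟨⟨⟨⟨⟨⟨h1, h2⟩, h3⟩, h4⟩, h5⟩, h6⟩, h7⟩ := h
    rw [sameTerms_eq L M h7]
    cases s
    cases t
    simp_all

end Lists

/-- Lower end of the third moment in a region. -/
noncomputable def lowC (up : Bool) (t : ℝ) : ℝ := if up then 3 / 2 * t ^ 2 - 1 / 2 else -t ^ 3

/-- A posterior with root `t` of the second moment lies in a box. -/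
structure InBox (b : Box) (t C : ℝ) : Prop where
  den0 : 0 < b.den
  kd0 : 0 < b.kd
  tlo : (b.lo : ℝ) ≤ b.den * (2 * t)
  thi : (b.den : ℝ) * (2 * t) < b.hi
  clo : ((b.kd : ℝ) - b.k0) * lowC b.up t + b.k0 * t ^ 3 ≤ b.kd * C
  chi : b.kd * C ≤ ((b.kd : ℝ) - b.k1) * lowC b.up t + b.k1 * t ^ 3

lemma InBox.tsplit {b : Box} {t C : ℝ} (h : InBox b t C) :
    InBox b.tL t C ∨ InBox b.tR t C := by
  have hd := h.den0
  rcases lt_or_ge ((2 * b.den : ℕ) * (2 * t) : ℝ) ((b.lo + b.hi : ℕ) : ℝ) with c | c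
  · refine Or.inl ⟨by simp [Box.tL, hd], h.kd0, ?_, c, h.clo, h.chi⟩
    simp only [Box.tL]; push_cast; linarith [h.tlo]
  · refine Or.inr ⟨by simp [Box.tR, hd], h.kd0, c, ?_, h.clo, h.chi⟩
    simp only [Box.tR]; push_cast; linarith [h.thi]

lemma InBox.ksplit {b : Box} {t C : ℝ} (h : InBox b t C) :
    InBox b.kL t C ∨ InBox b.kR t C := by
  have hd := h.kd0
  have a := h.clo
  have z := h.chi
  rcases le_total ((2 * b.kd : ℕ) * C : ℝ)
      ((((2 * b.kd : ℕ) : ℝ) - (b.k0 + b.k1 : ℕ)) * lowC b.up t + (b.k0 + b.k1 : ℕ) * t ^ 3)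
    with c | c
  · refine Or.inl ⟨h.den0, by simp [Box.kL, hd], h.tlo, h.thi, ?_, c⟩
    simp only [Box.kL]; push_cast; linarith
  · refine Or.inr ⟨h.den0, by simp [Box.kR, hd], h.tlo, h.thi, c, ?_⟩
    simp only [Box.kR]; push_cast; linarith

lemma inBox_root {p : Fin 3 → ℝ} (hp : Simp p) (h1 : pS p < 1) :
    InBox root0 (Real.sqrt (pS p)) (pC p) ∨ InBox root1 (Real.sqrt (pS p)) (pC p) := by
  obtain ⟨hlo, hhi⟩ := pC_le_pow hp (Real.sqrt_nonneg _) (Real.sq_sqrt (pS_nonneg p))
  have hge := pC_ge hp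
  have hsq := Real.sq_sqrt (pS_nonneg p)
  have ht0 := Real.sqrt_nonneg (pS p)
  have ht1 : Real.sqrt (pS p) < 1 := by
    have := Real.sqrt_lt_sqrt (pS_nonneg p) h1
    simpa using this
  generalize Real.sqrt (pS p) = t at *
  rcases lt_or_ge t (1 / 2) with h | h
  · refine Or.inl ⟨one_pos, one_pos, ?_, ?_, ?_, ?_⟩ <;>
      simp only [root0, lowC, Bool.false_eq_true, if_false, Nat.cast_zero, Nat.cast_one] <;>
      linarith
  · refine Or.inr ⟨one_pos, one_pos, ?_, ?_, ?_, ?_⟩ <;>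
      simp only [root1, lowC, if_true, Nat.cast_zero, Nat.cast_one, Nat.cast_ofNat, hsq] <;>
      linarith

/-- The parameters of a posterior in a box. -/
structure Par (b : Box) (S C u κ : ℝ) : Prop where
  y0 : 0 ≤ u
  k0 : 0 ≤ κ
  k1 : κ ≤ 1
  den0 : 0 < b.den
  kd0 : 0 < b.kd
  eS : ∀ (y : Kron.Ex) (x : Fin 4 → ℝ), y.evR x = u →
    4 * ((b.den : ℝ) * (1 + u)) ^ 2 * S = (boxT b y).evR x ^ 2
  eC : ∀ (y : Kron.Ex) (x : Fin 4 → ℝ), y.evR x = u →
    (b.kd : ℝ) * (8 * ((b.den : ℝ) * (1 + u)) ^ 3 * C)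
      = (1 - κ) * (boxLo b y).evR x + κ * (boxUp b y).evR x

lemma exists_par {b : Box} {S C t : ℝ} (hS : t ^ 2 = S) (h : InBox b t C) :
    ∃ u κ, Par b S C u κ := by
  have hd' : (0 : ℝ) < b.den := by exact_mod_cast h.den0
  have hbl := h.tlo
  have hh : 0 < (b.hi : ℝ) - b.den * (2 * t) := by linarith [h.thi]
  set u := ((b.den : ℝ) * (2 * t) - b.lo) / ((b.hi : ℝ) - b.den * (2 * t)) with hu
  have hu0 : 0 ≤ u := div_nonneg (by linarith) hh.le
  have huh : u * ((b.hi : ℝ) - b.den * (2 * t)) = b.den * (2 * t) - b.lo :=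
    div_mul_cancel₀ _ hh.ne'
  have hT : (b.den : ℝ) * (1 + u) * (2 * t) = b.lo + b.hi * u := by
    linear_combination -huh
  set G := (b.den : ℝ) * (1 + u) with hG
  set T := (b.lo : ℝ) + b.hi * u with hTdef
  have hv : 0 ≤ 8 * G ^ 3 := by
    have : 0 ≤ G := mul_nonneg hd'.le (by linarith)
    positivity
  have e3 : 8 * G ^ 3 * t ^ 3 = T ^ 3 := by rw [← hT]; ring
  have eS : 4 * G ^ 2 * S = T ^ 2 := by rw [← hT, ← hS]; ring
  obtain ⟨κ, k0, k1, hk⟩ := interp (c := (b.kd : ℝ) * (8 * G ^ 3 * C))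
    (a := ((b.kd : ℝ) - b.k0) * (8 * G ^ 3 * lowC b.up t) + b.k0 * T ^ 3)
    (b := ((b.kd : ℝ) - b.k1) * (8 * G ^ 3 * lowC b.up t) + b.k1 * T ^ 3)
    (by have := mul_le_mul_of_nonneg_left h.clo hv; rw [← e3]; linarith)
    (by have := mul_le_mul_of_nonneg_left h.chi hv; rw [← e3]; linarith)
  have eL : ∀ (y : Kron.Ex) (x : Fin 4 → ℝ), y.evR x = u →
      (endLo b y).evR x = 8 * G ^ 3 * lowC b.up t := by
    intro y x hy
    cases hbu : b.up
    · simp only [endLo, boxT, lowC, Kron.Ex.evR, hy, hbu, Bool.false_eq_true, if_false]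
      push_cast
      rw [← hTdef, ← e3]; ring
    · simp only [endLo, boxT, lowC, onePlus, Kron.Ex.evR, hy, hbu, if_true]
      push_cast
      rw [← hTdef, hS, ← eS, hG]; ring
  refine ⟨u, κ, hu0, k0, k1, h.den0, h.kd0, fun y x hy => ?_, fun y x hy => ?_⟩
  · simp only [boxT, Kron.Ex.evR, hy]
    push_cast
    exact eS
  · rw [← hG, hk]
    simp only [boxLo, boxUp, endUp, Kron.Ex.evR, eL y x hy, boxT, hy, hTdef]
    push_cast
    ring

variable {b b' : Box} {S C T D u κ v μ : ℝ}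

lemma side_eq (h : Par b S C u κ) {y : Kron.Ex} {x : Fin 4 → ℝ} (hy : y.evR x = u) {M i j : ℕ}
    (hj : j ≤ 3) (hN : 2 * i + 3 * j ≤ M) :
    3 * (b.kd : ℝ) ^ 3 * (2 * ((b.den : ℝ) * (1 + u))) ^ M * ((6 * S) ^ i * (6 * C) ^ j)
      = ∑ p, bp p κ * (sideB b p M i j y).evR x := by
  obtain ⟨r, hr⟩ := Nat.exists_eq_add_of_le hN
  have hsub : M - (2 * i + 3 * j) = r := by omega
  have hb := blos_eq κ (boxLo b y) (boxUp b y) x hj
  rw [← h.eC y x hy] at hb
  obtain ⟨c, hc⟩ := Nat.exists_eq_add_of_le hj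
  have hsub3 : 3 - j = c := by omega
  simp only [sideB, Kron.Ex.evR, onePlus, hy, hsub, hsub3]
  push_cast
  rw [hr]
  have key : ∀ K K' : ℝ, ∑ p, bp p κ * (K * (K' ^ r
      * ((boxT b y).evR x ^ (2 * i) * (blosEx p j (boxLo b y) (boxUp b y)).evR x)))
      = K * (K' ^ r * ((boxT b y).evR x ^ (2 * i)
          * (3 * ((b.kd : ℝ) * (8 * ((b.den : ℝ) * (1 + u)) ^ 3 * C)) ^ j))) := by
    intro K K'
    rw [hb, Finset.mul_sum, Finset.mul_sum, Finset.mul_sum]
    exact Finset.sum_congr rfl fun q _ => by ring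
  rw [key, pow_mul ((boxT b y).evR x), ← h.eS y x hy]
  rw [show (b.kd : ℝ) ^ 3 = (b.kd : ℝ) ^ j * (b.kd : ℝ) ^ c by rw [← pow_add, ← hc]]
  simp only [mul_pow, pow_add, ← pow_mul]
  rw [show (4 : ℝ) ^ i = 2 ^ (2 * i) by rw [pow_mul]; norm_num,
    show (8 : ℝ) ^ j = 2 ^ (3 * j) by rw [pow_mul]; norm_num]
  ring

lemma blos_hom (q : Fin 4) (v : ℝ) (a c : ℤ) (lo up : Kron.Ex) (x : Fin 4 → ℝ)
    (hl : lo.evR x = a * v ^ 3) (hu : up.evR x = c * v ^ 3) {j : ℕ} (hj : j ≤ 3) :
    (blosEx q j lo up).evR x = v ^ (3 * j) * (blosEx q j (.cst a) (.cst c)).evR x := by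
  fin_cases q <;> interval_cases j <;>
    (simp [blosEx, Kron.Ex.evR, hl, hu]; try ring)

/-- The factor removed on the child's side. -/
noncomputable def boxFac (cut : Bool) (b : Box) (u : ℝ) : ℝ :=
  if cut && !b.up then ((b.lo : ℝ) + b.hi * u) ^ 2 else 1

lemma child_eq (cut : Bool) (b : Box) (p : Fin 4) {y : Kron.Ex} {x : Fin 4 → ℝ} (hy : y.evR x = u)
    {M i j : ℕ} (hj : j ≤ 3) (h2 : cut = true → 2 ≤ 2 * i + 3 * j) :
    (sideB b p M i j y).evR x = boxFac cut b u * (childB cut b p M i j y).evR x := by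
  by_cases hc : (cut && !b.up) = true
  · have hcut : cut = true := by simp_all
    have hbu : b.up = false := by simp_all
    have hn := h2 hcut
    have hT : (boxT b y).evR x = (b.lo : ℝ) + b.hi * u := by simp [boxT, Kron.Ex.evR, hy]
    have hb := blos_hom p ((b.lo : ℝ) + b.hi * u) (2 * (b.k0 : ℤ) - b.kd) (2 * (b.k1 : ℤ) - b.kd)
      (boxLo b y) (boxUp b y) x
      (by simp [boxLo, endLo, endUp, hbu, Kron.Ex.evR, hT]; ring)
      (by simp [boxUp, endLo, endUp, hbu, Kron.Ex.evR, hT]; ring) hj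
    simp only [sideB, childB, boxFac, hc, if_true, Kron.Ex.evR, hb, hT]
    have e : ((b.lo : ℝ) + b.hi * u) ^ (2 * i) * ((b.lo : ℝ) + b.hi * u) ^ (3 * j)
        = ((b.lo : ℝ) + b.hi * u) ^ 2 * ((b.lo : ℝ) + b.hi * u) ^ (2 * i + 3 * j - 2) := by
      rw [← pow_add, ← pow_add]; congr 1; omega
    linear_combination (((6 ^ (i + j) * b.kd ^ (3 - j) : ℕ) : ℤ) : ℝ)
      * ((((2 * b.den : ℕ) : ℤ) : ℝ) * (onePlus y).evR x) ^ (M - (2 * i + 3 * j))
      * (blosEx p j (.cst (2 * (b.k0 : ℤ) - b.kd)) (.cst (2 * (b.k1 : ℤ) - b.kd))).evR x * e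
  · simp [childB, boxFac, hc]

lemma term_eq (F : Frame) (cut : Bool) (h : Par b S C u κ) (h' : Par b' T D v μ) {w l : ℝ}
    (hl : (F.q : ℝ) * (1 + w) * l = F.lo + F.hi * w) (t : Term)
    (ht : termOkB F cut t = true) :
    ((F.q : ℝ) * (1 + w)) ^ F.E * (3 * (b.kd : ℝ) ^ 3 * (2 * ((b.den : ℝ) * (1 + u))) ^ F.M)
        * (3 * (b'.kd : ℝ) ^ 3 * (2 * ((b'.den : ℝ) * (1 + v))) ^ F.N) * t.val l (6 * S) (6 * C) (6 * T) (6 * D)
      = boxFac cut b u * ∑ p, ∑ r, bp p κ * bp r μ
          * (termB F cut b b' p r t).evR ![w, u, v, 0] := by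
  simp only [termOkB, Bool.and_eq_true, Bool.or_eq_true, Bool.not_eq_true', decide_eq_true_eq] at ht
  obtain ⟨⟨⟨⟨⟨he, hM⟩, hN⟩, hj⟩, hn⟩, h2⟩ := ht
  have h2' : cut = true → 2 ≤ 2 * t.i + 3 * t.j := fun hc => by simpa [hc] using h2
  set x : Fin 4 → ℝ := ![w, u, v, 0] with hx
  have hu : (Kron.Ex.var 1).evR x = u := by simp [Kron.Ex.evR, hx]
  have hv : (Kron.Ex.var 2).evR x = v := by simp [Kron.Ex.evR, hx]
  have hw : (Kron.Ex.var 0).evR x = w := by simp [Kron.Ex.evR, hx]
  have e1 := side_eq h hu hj hM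
  have e2 := side_eq h' hv hn hN
  simp only [child_eq cut b _ hu hj h2'] at e1
  obtain ⟨r, hr⟩ := Nat.exists_eq_add_of_le he
  have hsub : F.E - t.e = r := by omega
  have er : ((F.q : ℝ) * (1 + w)) ^ F.E * l ^ t.e
      = ((F.lo : ℝ) + F.hi * w) ^ t.e * ((F.q : ℝ) * (1 + w)) ^ r := by
    rw [hr, pow_add, ← hl, mul_pow ((F.q : ℝ) * (1 + w)) l]
    ring
  simp only [termB, Kron.Ex.evR, onePlus, hsub, hw]
  push_cast
  calc _ = (t.c : ℝ) * (((F.q : ℝ) * (1 + w)) ^ F.E * l ^ t.e)
        * (3 * (b.kd : ℝ) ^ 3 * (2 * ((b.den : ℝ) * (1 + u))) ^ F.M * ((6 * S) ^ t.i * (6 * C) ^ t.j))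
        * (3 * (b'.kd : ℝ) ^ 3 * (2 * ((b'.den : ℝ) * (1 + v))) ^ F.N * ((6 * T) ^ t.m * (6 * D) ^ t.n)) := by
        simp only [Term.val]; ring
    _ = _ := by
        rw [e1, e2, er]
        simp only [Finset.mul_sum, Finset.sum_mul]
        rw [Finset.sum_comm]
        exact Finset.sum_congr rfl fun p _ => Finset.sum_congr rfl fun q _ => by
          rw [show x 0 = w from rfl]; ring

lemma piece_val (F : Frame) (cut : Bool) (bw bb : Box) (p r : Fin 4) (x : Fin 4 → ℝ)
    (L : List Term) :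
    (pieceB F cut bw bb p r L).evR x = (sumEx (L.map (termB F cut bw bb p r))).evR x := by
  simp only [pieceB, evR_sumEx, List.map_map, Function.comp_def]
  generalize L.length = f
  induction f generalizing L with
  | zero =>
    cases L with
    | nil => simp [groupsOf]
    | cons t L =>
      simp only [groupsOf, List.map_map, Function.comp_def]
      refine congrArg List.sum (List.map_congr_left fun u _ => ?_)
      simp [sumEx, termW, termB, Kron.Ex.evR]
      ring
  | succ f ih =>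
    cases L with
    | nil => simp [groupsOf]
    | cons t L =>
      simp only [groupsOf, List.map_cons, List.sum_cons, ih]
      rw [← sum_filter_split (fun u => u.m == t.m && u.n == t.n)
        (fun u => (termB F cut bw bb p r u).evR x) L, ← add_assoc]
      congr 1
      have key : ∀ M : List Term, (∀ u ∈ M, u.m = t.m ∧ u.n = t.n) →
          (sumEx (M.map (termW F cut bw p))).evR x * (sideB bb r F.N t.m t.n (.var 2)).evR x
            = (M.map fun u => (termB F cut bw bb p r u).evR x).sum := by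
        intro M
        induction M with
        | nil => intro _; simp [sumEx, Kron.Ex.evR]
        | cons u M ihM =>
          intro hM
          obtain ⟨hm, hn⟩ := hM u List.mem_cons_self
          have := ihM fun v hv => hM v (List.mem_cons_of_mem _ hv)
          simp only [List.map_cons, List.sum_cons, sumEx, Kron.Ex.evR, termB, termW, hm, hn] at this ⊢
          linear_combination this
      have := key (t :: L.filter fun u => u.m == t.m && u.n == t.n) fun u hu => by
        rcases List.mem_cons.1 hu with rfl | hu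
        · exact ⟨rfl, rfl⟩
        · simpa using (List.mem_filter.1 hu).2
      simpa [Kron.Ex.evR] using this

lemma degB_sumEx {i : Fin 4} {n : ℕ} : ∀ L : List Kron.Ex, (∀ e ∈ L, e.degB i ≤ n) →
    (sumEx L).degB i ≤ n
  | [], _ => by simp [sumEx, Kron.Ex.degB]
  | e :: L, h => by
    simp only [sumEx, Kron.Ex.degB, max_le_iff]
    exact ⟨h e List.mem_cons_self, degB_sumEx L fun u hu => h u (List.mem_cons_of_mem _ hu)⟩

lemma degB_blos (q : Fin 4) {j : ℕ} (hj : j ≤ 3) (lo up : Kron.Ex) (i : Fin 4) {n : ℕ}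
    (hl : lo.degB i ≤ n) (hu : up.degB i ≤ n) : (blosEx q j lo up).degB i ≤ n * j := by
  fin_cases q <;> interval_cases j <;> simp [blosEx, Kron.Ex.degB] <;> omega

/-- Degree of a variable used as the argument of a side. -/
def ind (k : Fin 4) (i : Fin 4) : ℕ := if i.val = k.val then 1 else 0

lemma degB_boxT (b : Box) (k i : Fin 4) : (boxT b (.var k)).degB i ≤ ind k i := by
  simp [boxT, Kron.Ex.degB, ind]

lemma degB_ends (b : Box) (k i : Fin 4) :
    (boxLo b (.var k)).degB i ≤ 3 * ind k i ∧ (boxUp b (.var k)).degB i ≤ 3 * ind k i := by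
  cases hb : b.up <;> by_cases hk : i.val = k.val <;>
    simp [boxLo, boxUp, endLo, endUp, boxT, onePlus, hb, Kron.Ex.degB, ind, hk]

lemma degB_sideB (b : Box) (p : Fin 4) {M i j : ℕ} (k a : Fin 4) (hj : j ≤ 3)
    (hN : 2 * i + 3 * j ≤ M) : (sideB b p M i j (.var k)).degB a ≤ M * ind k a := by
  have h := degB_blos p hj _ _ a (degB_ends b k a).1 (degB_ends b k a).2
  have hT := degB_boxT b k a
  simp only [sideB, Kron.Ex.degB, onePlus]
  by_cases hk : a.val = k.val <;> simp [ind, hk] at h hT ⊢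
  · have := Nat.mul_le_mul_left (2 * i) hT
    omega
  · simp [hT, h]

lemma degB_childB (cut : Bool) (b : Box) (p : Fin 4) {M i j : ℕ} (k a : Fin 4) (hj : j ≤ 3)
    (hN : 2 * i + 3 * j ≤ M) : (childB cut b p M i j (.var k)).degB a ≤ M * ind k a := by
  by_cases hc : (cut && !b.up) = true
  · have h := degB_blos p hj (.cst (2 * (b.k0 : ℤ) - b.kd)) (.cst (2 * (b.k1 : ℤ) - b.kd)) a
      (n := 0) (by simp [Kron.Ex.degB]) (by simp [Kron.Ex.degB])
    have hT := degB_boxT b k a
    simp only [childB, hc, if_true, Kron.Ex.degB, onePlus]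
    by_cases hk : a.val = k.val <;> simp [ind, hk] at h hT ⊢
    · have := Nat.mul_le_mul_left (2 * i + 3 * j - 2) hT
      simp [h]
      omega
    · simp [hT, h]
  · simpa [childB, hc] using degB_sideB b p k a hj hN

lemma groups_mem : ∀ (f : ℕ) (L : List Term), ∀ g ∈ groupsOf f L,
    (∀ u ∈ g.2, u ∈ L) ∧ ∃ t ∈ L, g.1 = (t.m, t.n)
  | _, [], g, hg => by simp [groupsOf] at hg
  | 0, t :: L, g, hg => by
    simp only [groupsOf, List.mem_map] at hg
    obtain ⟨u, hu, rfl⟩ := hg
    exact ⟨fun v hv => by rwa [List.mem_singleton.1 hv], u, hu, rfl⟩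
  | f + 1, t :: L, g, hg => by
    simp only [groupsOf, List.mem_cons] at hg
    rcases hg with rfl | hg
    · refine ⟨fun v hv => ?_, t, List.mem_cons_self, rfl⟩
      rcases List.mem_cons.1 hv with rfl | hv
      · exact List.mem_cons_self
      · exact List.mem_cons_of_mem _ (List.mem_filter.1 hv).1
    · obtain ⟨h1, u, hu, e⟩ := groups_mem f _ g hg
      exact ⟨fun v hv => List.mem_cons_of_mem _ (List.mem_filter.1 (h1 v hv)).1, u,
        List.mem_cons_of_mem _ (List.mem_filter.1 hu).1, e⟩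

lemma piece_deg (F : Frame) (cut : Bool) (bw bb : Box) (p r : Fin 4) (L : List Term)
    (hok : ∀ t ∈ L, termOkB F cut t = true) (i : Fin 4) :
    (pieceB F cut bw bb p r L).degB i < slots F i := by
  have hb : (pieceB F cut bw bb p r L).degB i
      ≤ F.E * ind 0 i + F.M * ind 1 i + F.N * ind 2 i := by
    refine degB_sumEx _ fun e he => ?_
    obtain ⟨g, hg, rfl⟩ := List.mem_map.1 he
    obtain ⟨h1, t, ht, eg⟩ := groups_mem _ _ g hg
    have hW : (sumEx (g.2.map (termW F cut bw p))).degB i ≤ F.E * ind 0 i + F.M * ind 1 i := by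
      refine degB_sumEx _ fun e he => ?_
      obtain ⟨u, hu, rfl⟩ := List.mem_map.1 he
      have hu' := hok u (h1 u hu)
      simp only [termOkB, Bool.and_eq_true, decide_eq_true_eq] at hu'
      obtain ⟨⟨⟨⟨⟨he', hM⟩, _⟩, hj⟩, _⟩, _⟩ := hu'
      have := degB_childB cut bw p 1 i hj hM
      simp only [termW, Kron.Ex.degB, onePlus]
      fin_cases i <;> simp [ind] at this ⊢ <;> omega
    have ht' := hok t ht
    simp only [termOkB, Bool.and_eq_true, decide_eq_true_eq] at ht'
    obtain ⟨⟨⟨⟨⟨_, _⟩, hN⟩, _⟩, hn⟩, _⟩ := ht'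
    have hB := degB_sideB bb r 2 i hn hN
    simp only [Kron.Ex.degB, eg]
    omega
  refine lt_of_le_of_lt hb ?_
  fin_cases i <;> simp [slots, ind]

variable {s q : ℕ} {lo hi : ℤ} {cut : Bool} {L : List Term}

/-- The range and the degrees of a frame suit a term list. -/
structure InFrame (F : Frame) (cut : Bool) (L : List Term) (l : ℝ) : Prop where
  q0 : 0 < F.q
  llo : (F.lo : ℝ) ≤ l * F.q
  lhi : l * F.q < F.hi
  ok : ∀ t ∈ L, termOkB F cut t = true

lemma InFrame.split {F : Frame} {l : ℝ} (h : InFrame F cut L l) :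
    InFrame F.hL cut L l ∨ InFrame F.hR cut L l := by
  have hq := h.q0
  rcases lt_or_ge (l * ((2 * F.q : ℕ) : ℝ)) ((F.lo + F.hi : ℤ) : ℝ) with c | c
  · refine Or.inl ⟨by simp [Frame.hL, hq], ?_, c, h.ok⟩
    simp only [Frame.hL]; push_cast; linarith [h.llo]
  · refine Or.inr ⟨by simp [Frame.hR, hq], c, ?_, h.ok⟩
    simp only [Frame.hR]; push_cast; linarith [h.lhi]

lemma leaf_nonneg {F : Frame} {bw bb : Box} {l : ℝ} {p r : Fin 3 → ℝ} {tp tr : ℝ}
    (hnn' : ∀ i j, fastNN (pieceB F cut bw bb i j L) (slots F)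
      (bitsFor ((F.E + 1) * (F.M + 1) * (F.N + 1))) s = true)
    (hF : InFrame F cut L l) (ep : tp ^ 2 = pS p) (er : tr ^ 2 = pS r)
    (hp : InBox bw tp (pC p)) (hr : InBox bb tr (pC r)) :
    0 ≤ evT L l (6 * pS p) (6 * pC p) (6 * pS r) (6 * pC r) := by
  obtain ⟨u, κ, hu⟩ := exists_par ep hp
  obtain ⟨v, μ, hv⟩ := exists_par er hr
  have hq' : (0 : ℝ) < F.q := by exact_mod_cast hF.q0
  have h0 := hF.llo
  have h1 := hF.lhi
  have hok := hF.ok
  set w := (l * F.q - F.lo) / ((F.hi : ℝ) - l * F.q) with hw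
  have hw0 : 0 ≤ w := div_nonneg (by linarith) (by linarith)
  have hwh : w * ((F.hi : ℝ) - l * F.q) = l * F.q - F.lo := div_mul_cancel₀ _ (by linarith)
  have hl : (F.q : ℝ) * (1 + w) * l = F.lo + F.hi * w := by
    linear_combination -hwh
  have hpos : 0 < ((F.q : ℝ) * (1 + w)) ^ F.E * (3 * (bw.kd : ℝ) ^ 3 * (2 * ((bw.den : ℝ) * (1 + u))) ^ F.M)
      * (3 * (bb.kd : ℝ) ^ 3 * (2 * ((bb.den : ℝ) * (1 + v))) ^ F.N) := by
    have a : 0 < 1 + u := by linarith [hu.y0]
    have b : 0 < 1 + v := by linarith [hv.y0]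
    have c : 0 < 1 + w := by linarith
    have d1 : (0 : ℝ) < bw.den := by exact_mod_cast hu.den0
    have d2 : (0 : ℝ) < bb.den := by exact_mod_cast hv.den0
    have d4 : (0 : ℝ) < bw.kd := by exact_mod_cast hu.kd0
    have d5 : (0 : ℝ) < bb.kd := by exact_mod_cast hv.kd0
    positivity
  have key : ∀ M : List Term, (∀ t ∈ M, termOkB F cut t = true) →
      ((F.q : ℝ) * (1 + w)) ^ F.E * (3 * (bw.kd : ℝ) ^ 3 * (2 * ((bw.den : ℝ) * (1 + u))) ^ F.M)
          * (3 * (bb.kd : ℝ) ^ 3 * (2 * ((bb.den : ℝ) * (1 + v))) ^ F.N)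
          * evT M l (6 * pS p) (6 * pC p) (6 * pS r) (6 * pC r)
        = boxFac cut bw u * ∑ i, ∑ j, bp i κ * bp j μ
            * (sumEx (M.map (termB F cut bw bb i j))).evR ![w, u, v, 0] := by
    intro M
    induction M with
    | nil => intro _; simp [sumEx, Kron.Ex.evR]
    | cons t M ih =>
      intro hM
      have a := term_eq F cut hu hv hl t (hM t List.mem_cons_self)
      have c := ih fun s hs => hM s (List.mem_cons_of_mem _ hs)
      rw [evT_cons, mul_add, a, c, ← mul_add, ← Finset.sum_add_distrib]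
      congr 1
      refine Finset.sum_congr rfl fun i _ => ?_
      rw [← Finset.sum_add_distrib]
      refine Finset.sum_congr rfl fun j _ => ?_
      simp only [List.map_cons, sumEx, Kron.Ex.evR]
      ring
  refine nonneg_of_mul_nonneg_right ?_ hpos
  rw [key L hok]
  refine mul_nonneg ?_ (Finset.sum_nonneg fun i _ => Finset.sum_nonneg fun j _ => ?_)
  · unfold boxFac; split_ifs <;> positivity
  · refine mul_nonneg (mul_nonneg (bp_nonneg hu.k0 hu.k1 i) (bp_nonneg hv.k0 hv.k1 j)) ?_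
    rw [← piece_val]
    refine nonneg_of_fastNN (piece_deg F cut bw bb i j L hok) (hnn' i j) _ fun a => ?_
    have := hu.y0
    have := hv.y0
    fin_cases a <;> simp <;> assumption

/-- A tree whose leaves pass gives nonnegativity on its root. -/
lemma tree_nonneg {l : ℝ} {p r : Fin 3 → ℝ} {tp tr : ℝ} (ep : tp ^ 2 = pS p) (er : tr ^ 2 = pS r) :
    ∀ (T : Tree) (F : Frame) (bw bb : Box), treeOk s cut L T F bw bb = true →
      InFrame F cut L l → InBox bw tp (pC p) → InBox bb tr (pC r) →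
      0 ≤ evT L l (6 * pS p) (6 * pC p) (6 * pS r) (6 * pC r) := by
  intro T
  induction T with
  | lf =>
    intro F bw bb h hF hp hr
    simp only [treeOk, List.all_eq_true] at h
    exact leaf_nonneg (fun i j => h i (List.mem_finRange i) j (List.mem_finRange j)) hF ep er hp hr
  | nd v a b iha ihb =>
    intro F bw bb h hF hp hr
    match v with
    | 0 =>
      simp only [treeOk, Bool.and_eq_true] at h
      exact hF.split.elim (iha _ _ _ h.1 · hp hr) (ihb _ _ _ h.2 · hp hr)
    | 1 =>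
      simp only [treeOk, Bool.and_eq_true] at h
      exact hp.tsplit.elim (iha _ _ _ h.1 hF · hr) (ihb _ _ _ h.2 hF · hr)
    | 2 =>
      simp only [treeOk, Bool.and_eq_true] at h
      exact hp.ksplit.elim (iha _ _ _ h.1 hF · hr) (ihb _ _ _ h.2 hF · hr)
    | 3 =>
      simp only [treeOk, Bool.and_eq_true] at h
      exact hr.tsplit.elim (iha _ _ _ h.1 hF hp ·) (ihb _ _ _ h.2 hF hp ·)
    | n + 4 =>
      simp only [treeOk, Bool.and_eq_true] at h
      exact hr.ksplit.elim (iha _ _ _ h.1 hF hp ·) (ihb _ _ _ h.2 hF hp ·)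

lemma posList_open {ts : List Tree} (h : posList s q lo hi cut L ts = true) {l : ℝ}
    (h0 : (lo : ℝ) / q ≤ l) (h1 : l < (hi : ℝ) / q) {p r : Fin 3 → ℝ} (hp : Simp p) (hr : Simp r)
    (hp1 : pS p < 1) (hr1 : pS r < 1) :
    0 ≤ evT L l (6 * pS p) (6 * pC p) (6 * pS r) (6 * pC r) := by
  match ts, h with
  | [a, b, c, d], h =>
    simp only [posList, Bool.and_eq_true, decide_eq_true_eq, List.all_eq_true] at h
    obtain ⟨⟨⟨⟨⟨⟨hq, _⟩, hok⟩, ha⟩, hb⟩, hc⟩, hd⟩ := h
    have hq' : (0 : ℝ) < q := by exact_mod_cast hq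
    rw [div_le_iff₀ hq'] at h0
    rw [lt_div_iff₀ hq'] at h1
    have hF : InFrame (frameOf q lo hi (merge L)) cut (merge L) l := ⟨hq, h0, h1, hok⟩
    rw [← evT_merge]
    have ep := Real.sq_sqrt (pS_nonneg p)
    have er := Real.sq_sqrt (pS_nonneg r)
    rcases inBox_root hp hp1 with i | i <;> rcases inBox_root hr hr1 with j | j
    · exact tree_nonneg ep er a _ _ _ ha hF i j
    · exact tree_nonneg ep er b _ _ _ hb hF i j
    · exact tree_nonneg ep er c _ _ _ hc hF i j
    · exact tree_nonneg ep er d _ _ _ hd hF i j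
  | [], h => simp [posList] at h
  | [_], h => simp [posList] at h
  | [_, _], h => simp [posList] at h
  | [_, _, _], h => simp [posList] at h
  | _ :: _ :: _ :: _ :: _ :: _, h => simp [posList] at h

lemma continuous_evT (L : List Term) (l : ℝ) {f1 f2 f3 f4 : ℝ → ℝ} (c1 : Continuous f1)
    (c2 : Continuous f2) (c3 : Continuous f3) (c4 : Continuous f4) :
    Continuous fun u => evT L l (f1 u) (f2 u) (f3 u) (f4 u) := by
  induction L with
  | nil => simp only [evT_nil]; exact continuous_const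
  | cons t L ih =>
    simp only [evT_cons, Term.val]
    exact Continuous.add (by fun_prop) ih

/-- A term list passing the test is nonnegative. -/
theorem posList_nonneg {ts : List Tree} (h : posList s q lo hi cut L ts = true) {l : ℝ}
    (h0 : (lo : ℝ) / q ≤ l) (h1 : l < (hi : ℝ) / q) {p r : Fin 3 → ℝ} (hp : Simp p)
    (hr : Simp r) : 0 ≤ evT L l (6 * pS p) (6 * pC p) (6 * pS r) (6 * pC r) := by
  have hc : Continuous fun u : ℝ => evT L l (6 * (u ^ 2 * pS p)) (6 * (u ^ 3 * pC p))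
      (6 * (u ^ 2 * pS r)) (6 * (u ^ 3 * pC r)) :=
    continuous_evT L l (by fun_prop) (by fun_prop) (by fun_prop) (by fun_prop)
  have hlim := (hc.tendsto 1).mono_left (nhdsWithin_le_nhds (s := Set.Iio (1 : ℝ)))
  simp only [one_pow, one_mul] at hlim
  refine ge_of_tendsto hlim
    (Filter.eventually_of_mem (Ioo_mem_nhdsLT (zero_lt_one' ℝ)) fun u hu => ?_)
  have hu2 : u ^ 2 < 1 := by nlinarith [hu.1, hu.2]
  have := posList_open h h0 h1 (simp_shrink hu.1.le hu.2.le hp) (simp_shrink hu.1.le hu.2.le hr)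
    (by rw [pS_shrink]; nlinarith [pS_le_one hp, pS_nonneg p])
    (by rw [pS_shrink]; nlinarith [pS_le_one hr, pS_nonneg r])
  simpa [pS_shrink, pC_shrink] using this

end Vale.Agent.P154.Neg.Band
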