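import Vale.Agent.P154.Neg.Band.Boxes

/-!
# P154: the threshold from two bands and the runs

Band `A` is unconditional up to `-1/3`; band `C` reaches `-1/2` and asks for a small averaged square
moment, which one regular run at four children and Poisson runs on the list `runBoxes` supply.
-/

namespace Vale.Agent.P154.Neg

open Filter Topology ENNReal

/-- Poisson runs at the conditioned band: mean, edge. -/
def runBoxes : List (ℚ × ℚ) :=
  [(508/125, -1/2), (1049/250, -32/65), (2169/500, -31/64), (449/100, -10/21),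
   (581/125, -22/47), (2407/500, -23/50), (991/200, -14/31)]

/-- The runs: averaged square moments below the threshold of band `C`. -/
def RunsBelow (x : ℝ) (r : List (ℚ × ℚ)) : Prop :=
  (∀ᶠ n in atTop, avT (-1 / 2) sX2 4 n ≤ (4 : ℕ) * x) ∧
  ∀ b ∈ r, ∀ᶠ n in atTop, avP (b.2 : ℝ) sX2 (b.1 : ℝ) n ≤ ENNReal.ofReal ((b.1 : ℝ) * x)

namespace Band

open Large

variable {A C : Data}

/-- An unconditional band, at one point. -/
theorem gw_band_lim (hA : Sound A) (hxA : 1 ≤ x0 A) (hAhi : -1 / 3 ≤ (A.hi : ℝ) / A.q) {d l : ℝ}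
    (hlo : (A.lo : ℝ) / A.q ≤ l) (hl : l < 0) (hd0 : 0 < d) (hq : d * l ^ 2 ≤ 1) :
    Tendsto (mGW l d) atTop (𝓝 0) := by
  refine gwLim_of_band hA hxA hAhi (a := d - 1) (D := -(d + 1) / l) hlo d ⟨by linarith, ?_⟩ hd0 l
    ⟨le_rfl, hl⟩ hq
  rw [div_mul_cancel₀ _ hl.ne]
  nlinarith

/-- Poisson windows from the two bands and a run. -/
theorem gwLim_of_bands (hA : Sound A) (hxA : 1 ≤ x0 A) (hAhi : -1 / 3 ≤ (A.hi : ℝ) / A.q)
    (hC : Sound C) (hxC : 0 ≤ x0 C) (hClo : (C.lo : ℝ) / C.q ≤ -1 / 2)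
    (hCA : (A.lo : ℝ) / A.q ≤ (C.hi : ℝ) / C.q) {a D L : ℝ} (hD : 0 < D) (hL : -1 / 2 ≤ L)
    (hL0 : L < 0) (hrun : ∀ᶠ n in atTop, avP L sX2 D n ≤ ENNReal.ofReal (D * x0 C)) :
    GWLim a D L := by
  intro d hd hd0 l hl hq
  rcases lt_or_ge l ((A.lo : ℝ) / A.q) with h | h
  · have h0 : -1 / 2 ≤ l := hL.trans hl.1
    have hcert := condCert_of_sound hC (hClo.trans h0) (h.trans_le hCA)
    refine gw_tendsto_of_cond h0 (by linarith [hl.2]) hxC hcert hd0 hq (hrun.mono fun n hn => ?_)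
    exact avP_box adm_sX2 n hd0 hD hL hl.1 hl.2 (thin_mean_le hd0.le hD.le hL0 hl.2.le hd.2 hq) hn
  · exact gw_band_lim hA hxA hAhi h hl.2 hd0 hq

end Band

/-- Box limits along a list from a property of every entry. -/
theorem gwPieces_of_forall : ∀ (r : List (ℚ × ℚ)) (a : ℚ),
    (∀ b ∈ r, ∀ a' : ℝ, GWLim a' (b.1 : ℝ) (b.2 : ℝ)) → GWPieces r a :=
  fun r a h => gwPieces_append [] r a trivial h

/-- Both halves of the question from the two bands and the runs. -/
theorem threshold_of_runs {A C : Band.Data} (hA : Band.Sound A) (hxA : 1 ≤ Band.x0 A)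
    (hAlo : (A.lo : ℝ) / A.q ≤ -17 / 38) (hAhi : -1 / 3 ≤ (A.hi : ℝ) / A.q)
    (hC : Band.Sound C) (hxC : 0 ≤ Band.x0 C) (hClo : (C.lo : ℝ) / C.q ≤ -1 / 2)
    (hCA : (A.lo : ℝ) / A.q ≤ (C.hi : ℝ) / C.q) (hCpos : -1 / 2 < (C.hi : ℝ) / C.q)
    (hr : RunsBelow (Band.x0 C) runBoxes) : Threshold := by
  obtain ⟨hR, hG⟩ := hr
  have hreg : ∀ d : ℕ, 2 ≤ d → ∀ l : ℝ, -1 / 2 ≤ l → l < -1 / 3 → (d : ℝ) * l ^ 2 ≤ 1 →
      Tendsto (aReg l d) atTop (𝓝 0) := by
    intro d _ l h0 hl hq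
    rcases Nat.lt_or_ge 4 d with h | h
    · have h5 : (5 : ℝ) ≤ d := by exact_mod_cast h
      have hlo : -17 / 38 ≤ l := by
        by_contra hc
        rw [not_le] at hc
        nlinarith [mul_le_mul_of_nonneg_right h5 (sq_nonneg l)]
      exact aReg_tendsto h0 (by linarith)
        (Band.regLim_of_band hA hxA hAhi (L := l) (hAlo.trans hlo) l ⟨le_rfl, by linarith⟩ hq)
    · exact aReg_tendsto_of_box le_rfl h0 (by linarith) h
        (reg_tendsto_of_cond le_rfl (by norm_num) (Band.condCert_of_sound hC hClo hCpos)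
          (by norm_num) hR)
  have hc : covers runBoxes (39/10) 5 = true := by decide +kernel
  have hp : GWPieces runBoxes (39/10) := gwPieces_of_forall _ _ fun b hb a' => by
    have hpos : (0 : ℝ) < b.1 ∧ -1 / 2 ≤ (b.2 : ℝ) ∧ (b.2 : ℝ) < 0 := by
      simp only [runBoxes, List.mem_cons, List.not_mem_nil, or_false] at hb
      rcases hb with rfl | rfl | rfl | rfl | rfl | rfl | rfl <;> norm_num
    exact Band.gwLim_of_bands hA hxA hAhi hC hxC hClo hCA hpos.1 hpos.2.1 hpos.2.2 (hG b hb)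
  have hgw : ∀ d : ℝ, 0 < d → ∀ l : ℝ, -1 / 2 ≤ l → l < -1 / 3 → d * l ^ 2 ≤ 1 →
      Tendsto (aGW l d) atTop (𝓝 0) := by
    intro d hd0 l h0 hl hq
    rcases le_or_gt d 4 with h | h
    · exact aGW_tendsto_of_box le_rfl h0 (by linarith) hd0.le h
        (gw_chain _ _ _ hc hp (by norm_num) (by norm_num) (by norm_num) le_rfl (by norm_num)
          (by norm_num))
    rcases le_or_gt d 5 with h' | h'
    · exact aGW_tendsto hd0.le h0 (by linarith)
        (gw_chain _ _ _ hc hp hd0 (by push_cast; linarith) (by push_cast; linarith) h0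
          (by linarith) hq)
    · have hlo : -17 / 38 ≤ l := by
        by_contra hc'
        rw [not_le] at hc'
        nlinarith [mul_le_mul_of_nonneg_right h'.le (sq_nonneg l)]
      exact aGW_tendsto hd0.le h0 (by linarith)
        (Band.gw_band_lim hA hxA hAhi (hAlo.trans hlo) (by linarith) hd0 hq)
  have h3 : ThreeState := by
    refine ⟨fun d hd l hl => ⟨fun hq => ?_, reg_reconstruction hl.1 hl.2⟩,
      fun d hd l hl => ⟨fun hq => ?_, gw_reconstruction hd hl.1 hl.2⟩⟩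
    · rcases le_or_gt 0 l with h | h
      · exact P154.reg_nonreconstruction h hl.2 hd hq
      rcases le_or_gt (-1 / 3) l with h' | h'
      · obtain ⟨f, hf⟩ := potRange l ⟨h', h.le⟩
        exact reg_tendsto_of_pot hl.1 hl.2 hf hq
      · exact hreg d hd l hl.1 h' hq
    · rcases le_or_gt 0 l with h | h
      · exact P154.gw_nonreconstruction hd h hl.2 hq
      rcases le_or_gt (-1 / 3) l with h' | h'
      · obtain ⟨f, hf⟩ := potRange l ⟨h', h.le⟩
        exact gw_tendsto_of_pot hl.1 hl.2 hf hd hq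
      · exact hgw d hd l hl.1 h' hq
  have h4 := Q.threshold_of_cert (q := 4) (by norm_num) (Q.edgeCert (by norm_num) (by norm_num))
    Four.pairCert_four
  exact ⟨fun d hd l hl => iff_and (h3.1 d hd l hl), fun d hd l hl => iff_and (h3.2 d hd l hl),
    fun d hd l hl => iff_and (h4.1 d hd l hl), fun d hd l hl => iff_and (h4.2.1 d hd l hl)⟩

end Vale.Agent.P154.Neg
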