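import Vale.Agent.P154.Neg.Band.Defs
import Vale.Agent.P154.Neg.Large.Step
import Vale.Agent.P154.Neg.RunBound

/-!
# P154: a checked band gives a conditioned potential

Summing the pointwise inequality over atom pairs gives the step of the conditioned potential, with the
mean square of the normalised second moment as the conditioning functional.
-/

namespace Vale.Agent.P154.Neg.Band

open Large Finset

variable {B : Data} {l : ℝ}

lemma band_mem (hB : Sound B) (h0 : (B.lo : ℝ) / B.q ≤ l) (h1 : l < (B.hi : ℝ) / B.q) :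
    -1 / 2 ≤ l ∧ l < 0 := by
  obtain ⟨hlo, hhi⟩ := hB.band
  have hhi' : (B.hi : ℝ) ≤ 0 := by exact_mod_cast hhi
  have hl : l < 0 := lt_of_lt_of_le h1 (div_nonpos_of_nonpos_of_nonneg hhi' (Nat.cast_nonneg _))
  refine ⟨le_trans ?_ h0, hl⟩
  rcases Nat.eq_zero_or_pos B.q with hq | hq
  · simp [hq]; norm_num
  · have hlo' : -(B.q : ℝ) ≤ 2 * B.lo := by exact_mod_cast hlo
    rw [div_le_div_iff₀ (by norm_num) (by exact_mod_cast hq)]
    linarith

lemma sX2_eq {x : Fin 3 → ℝ} (hx : ∀ i, 0 ≤ x i) : sX2 x = wt x * pS (post x) ^ 2 := by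
  rcases (mass_nonneg hx).eq_or_lt with e | e
  · simp [sX2, mG, wt, ← e]
  · have : sNorm x = pS (post x) := by
      rw [sNorm, sX, q2, pS_eq (simp_post hx e)]
      simp only [post, esy2]
      field_simp
    rw [sX2, mG, this, wt]

lemma fL_smul' (k : Fin 2) (c : ℝ) (x : Fin 3 → ℝ) : fL B k (fun i => c * x i) = c * fL B k x := by
  rcases eq_or_ne c 0 with rfl | h
  · simp [fL, mass]
  · have : post (fun i => c * x i) = post x := by
      funext i; simp only [post, mass_smul]; rw [mul_div_mul_left _ _ h]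
    rw [fL, fL, this, mass_smul]; ring

lemma zz_nonneg (h0 : -1 / 2 ≤ l) (h1 : l < 0) {w b : Fin 3 → ℝ} (hw : Simp w) (hb : Simp b)
    (s : Fin 6) (i : Fin 3) : 0 ≤ zz l w b s i := by
  have hw1 : w i ≤ 1 := by
    have := hw.1 0; have := hw.1 1; have := hw.1 2; have := hw.2
    fin_cases i <;> simp <;> linarith
  refine mul_nonneg (mul_nonneg (by norm_num) ?_) (hb.1 _)
  nlinarith [mul_nonneg (neg_nonneg.2 h1.le) (hw.1 i),
    mul_le_mul_of_nonneg_left hw1 (neg_nonneg.2 h1.le)]

variable (hB : Sound B) (h0 : (B.lo : ℝ) / B.q ≤ l) (h1 : l < (B.hi : ℝ) / B.q)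
include hB h0 h1

lemma pair_le (k : Fin 2) {x y : Fin 3 → ℝ} (hx : ∀ i, 0 ≤ x i) (hy : ∀ i, 0 ≤ y i) :
    orb (fL B k) (edge l x) y ≤ 6 * (wt x * wt y * (phiR B k (post y)
      + l ^ 2 * (pwR B k (post x) * (phiR B (oth k) (post y) - phiR B k (post y))
        + ((1 - qwR B k l (post y)) * phiR B k (post x)
          + qwR B k l (post y) * phiR B (oth k) (post x))
        + (pS (post y) ^ 2 - x0 B) * multR B (post x)
        - (B.gain : ℝ) / B.wden * pS (post x) ^ 2))) := by
  obtain ⟨hl0, hl1⟩ := band_mem hB h0 h1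
  rcases (mass_nonneg hx).eq_or_lt with e | ex
  · have hx0 := eq_zero_of_mass hx e.symm
    simp [wt, orb, edge, fL, mass, hx0]
  rcases (mass_nonneg hy).eq_or_lt with e | ey
  · have hy0 := eq_zero_of_mass hy e.symm
    simp [wt, orb, fL, mass, hy0]
  set w := post x with hwdef
  set b := post y with hbdef
  have hw : Simp w := simp_post hx ex
  have hb : Simp b := simp_post hy ey
  have hterm : ∀ s, fL B k (fun i => edge l x i * y (perm6 s i)) ≤
      mass x * mass y / 9 * uR B k (zz l w b s) := by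
    intro s
    have e : (fun i => edge l x i * y (perm6 s i)) =
        fun i => mass x * mass y / 3 * zz l w b s i := by
      funext i
      simp only [zz, edge, hwdef, hbdef, post]
      field_simp
      ring
    have hu : mass (zz l w b s) * phiR B k (post (zz l w b s)) ≤ uR B k (zz l w b s) := by
      rcases (mass_nonneg (zz_nonneg hl0 hl1 hw hb s)).eq_or_lt with hm | hm
      · rw [← hm, zero_mul]; exact hB.upper_zero k l w b s h0 hl1 hw hb hm.symm
      · exact hB.upper k l w b s h0 hl1 hw hb hm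
    have := mul_le_mul_of_nonneg_left hu (show (0 : ℝ) ≤ mass x * mass y / 9 by positivity)
    rw [e, fL_smul', fL]
    linarith
  refine (Finset.sum_le_sum fun s _ => hterm s).trans ?_
  rw [← Finset.mul_sum]
  have := mul_le_mul_of_nonneg_left (hB.key k l w b h0 h1 hw hb)
    (show (0 : ℝ) ≤ 2 / 3 * mass x * mass y by positivity)
  simp only [wt]
  linarith

lemma band_step {A C : Type} [Fintype A] [Fintype C] (k : Fin 2) {M : A → Fin 3 → ℝ}
    {L : C → Fin 3 → ℝ} (hM : Good M) (hL : Good L) :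
    ∑ q, fL B k (prodL (fun o => edge l (M o)) L q) ≤
      potS (fL B) L + l ^ 2 * (potS (fL B) M - (B.gain : ℝ) / B.wden * chX M ^ 2)
        + l ^ 2 * (∑ o, sX2 (L o) - x0 B) * ∑ o, gL B (M o) := by
  obtain ⟨hl0, hl1⟩ := band_mem hB h0 h1
  have hsum := orb_sum (L := fun o => edge l (M o)) hL (fL B k)
  have hle := Finset.sum_le_sum (s := univ) fun a _ => Finset.sum_le_sum (s := univ) fun b _ =>
    pair_le hB h0 h1 k (hM.nonneg a) (hL.nonneg b)
  rw [hsum] at hle
  simp only [← Finset.mul_sum (a := (6 : ℝ))] at hle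
  set P := ∑ a, wt (M a) * (l ^ 2 * pwR B k (post (M a))) with hPdef
  set Q := ∑ b, wt (L b) * qwR B k l (post (L b)) with hQdef
  set X2 := ∑ a, wt (M a) * pS (post (M a)) ^ 2 with hX2def
  have hP : 0 ≤ P ∧ P ≤ 1 := by
    constructor
    · calc (0 : ℝ) = ∑ a, wt (M a) * (fun _ => (0 : ℝ)) (post (M a)) := by simp
        _ ≤ _ := Finset.sum_le_sum fun a _ => wt_le (hM.nonneg a)
            (g := fun _ => 0) fun p hp => mul_nonneg (sq_nonneg l) (hB.pw_mem k l p h0 hl1 hp).1
    · calc P ≤ ∑ a, wt (M a) * (fun _ => (1 : ℝ)) (post (M a)) :=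
            Finset.sum_le_sum fun a _ => wt_le (hM.nonneg a)
              (h := fun _ => 1) fun p hp => (hB.pw_mem k l p h0 hl1 hp).2
        _ = 1 := by simp [sum_wt hM]
  have hQ : 0 ≤ Q ∧ Q ≤ 1 := by
    constructor
    · calc (0 : ℝ) = ∑ b, wt (L b) * (fun _ => (0 : ℝ)) (post (L b)) := by simp
        _ ≤ _ := Finset.sum_le_sum fun b _ => wt_le (hL.nonneg b)
            (g := fun _ => 0) fun p hp => (hB.qw_mem k l p h0 h1 hp).1
    · calc Q ≤ ∑ b, wt (L b) * (fun _ => (1 : ℝ)) (post (L b)) :=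
            Finset.sum_le_sum fun b _ => wt_le (hL.nonneg b)
              (h := fun _ => 1) fun p hp => (hB.qw_mem k l p h0 h1 hp).2
        _ = 1 := by simp [sum_wt hL]
  have hX : chX M ^ 2 ≤ X2 := by
    have h := Finset.sum_nonneg (s := univ) fun a _ =>
      mul_nonneg (wt_nonneg (hM.nonneg a)) (sq_nonneg (pS (post (M a)) - chX M))
    have e : ∀ a, wt (M a) * (pS (post (M a)) - chX M) ^ 2 = wt (M a) * pS (post (M a)) ^ 2
        - 2 * chX M * (wt (M a) * pS (post (M a))) + chX M ^ 2 * wt (M a) := fun a => by ring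
    simp only [e, Finset.sum_add_distrib, Finset.sum_sub_distrib, ← Finset.mul_sum, sum_wt hM,
      ← chX_eq_sum hM, ← hX2def] at h
    linarith
  have hH : ∑ o, sX2 (L o) = ∑ b, wt (L b) * pS (post (L b)) ^ 2 :=
    Finset.sum_congr rfl fun b _ => sX2_eq (hL.nonneg b)
  have hsplit : ∑ a, ∑ b, wt (M a) * wt (L b) * (phiR B k (post (L b))
      + l ^ 2 * (pwR B k (post (M a)) * (phiR B (oth k) (post (L b)) - phiR B k (post (L b)))
        + ((1 - qwR B k l (post (L b))) * phiR B k (post (M a))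
          + qwR B k l (post (L b)) * phiR B (oth k) (post (M a)))
        + (pS (post (L b)) ^ 2 - x0 B) * multR B (post (M a))
        - (B.gain : ℝ) / B.wden * pS (post (M a)) ^ 2))
      = (∑ b, fL B k (L b)) + P * ((∑ b, fL B (oth k) (L b)) - ∑ b, fL B k (L b))
        + l ^ 2 * ((∑ a, fL B k (M a)) + Q * ((∑ a, fL B (oth k) (M a)) - ∑ a, fL B k (M a))
          - (B.gain : ℝ) / B.wden * X2)
        + l ^ 2 * (∑ o, sX2 (L o) - x0 B) * ∑ o, gL B (M o) := by
    have e : ∀ a b, wt (M a) * wt (L b) * (phiR B k (post (L b))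
        + l ^ 2 * (pwR B k (post (M a)) * (phiR B (oth k) (post (L b)) - phiR B k (post (L b)))
          + ((1 - qwR B k l (post (L b))) * phiR B k (post (M a))
            + qwR B k l (post (L b)) * phiR B (oth k) (post (M a)))
          + (pS (post (L b)) ^ 2 - x0 B) * multR B (post (M a))
          - (B.gain : ℝ) / B.wden * pS (post (M a)) ^ 2))
        = wt (M a) * fL B k (L b)
          + (wt (M a) * (l ^ 2 * pwR B k (post (M a)))) * (fL B (oth k) (L b) - fL B k (L b))
          + l ^ 2 * (wt (L b) * fL B k (M a)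
            + (wt (L b) * qwR B k l (post (L b))) * (fL B (oth k) (M a) - fL B k (M a))
            - (B.gain : ℝ) / B.wden * (wt (L b) * (wt (M a) * pS (post (M a)) ^ 2)))
          + l ^ 2 * ((wt (L b) * pS (post (L b)) ^ 2) * gL B (M a)
            - x0 B * (wt (L b) * gL B (M a))) := by
      intro a b; simp only [fL, gL, wt]; ring
    rw [hH]
    simp only [e, Finset.sum_add_distrib, Finset.sum_sub_distrib, ← Finset.mul_sum,
      ← Finset.sum_mul, sum_wt hL, sum_wt hM, hPdef, hQdef, hX2def]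
    ring
  rw [hsplit] at hle
  have hsup : ∀ {D : Type} [Fintype D] (N : D → Fin 3 → ℝ) {t : ℝ}, 0 ≤ t → t ≤ 1 →
      (∑ o, fL B k (N o)) + t * ((∑ o, fL B (oth k) (N o)) - ∑ o, fL B k (N o))
        ≤ potS (fL B) N := by
    intro D _ N t ht0 ht1
    have a : ∀ j, ∑ o, fL B j (N o) ≤ potS (fL B) N := fun j =>
      Finset.le_sup' (fun j => ∑ o, fL B j (N o)) (Finset.mem_univ j)
    nlinarith [mul_le_mul_of_nonneg_left (a (oth k)) ht0,
      mul_le_mul_of_nonneg_left (a k) (sub_nonneg.2 ht1)]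
  have hA := hsup L hP.1 hP.2
  have hg : (0 : ℝ) ≤ (B.gain : ℝ) / B.wden := by positivity
  have := mul_le_mul_of_nonneg_left
    (show (∑ a, fL B k (M a)) + Q * ((∑ a, fL B (oth k) (M a)) - ∑ a, fL B k (M a))
        - (B.gain : ℝ) / B.wden * X2 ≤
      potS (fL B) M - (B.gain : ℝ) / B.wden * chX M ^ 2 by
      linarith [hsup M hQ.1 hQ.2, mul_le_mul_of_nonneg_left hX hg]) (sq_nonneg l)
  linarith

/-- A checked band gives a conditioned potential at each of its edges. -/
theorem condCert_of_sound : CondCert l (x0 B) (fL B) (gL B) sX2 where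
  adm := adm_sX2
  lower := by
    have hd : (0 : ℝ) < B.den := by exact_mod_cast hB.den_pos
    have hlo : (0 : ℝ) < B.low := by exact_mod_cast hB.low_pos
    refine ⟨(B.low : ℝ) / B.den / 2, by positivity, fun {A} _ L hL => ?_⟩
    have h : ∑ o, wt (L o) * ((B.low : ℝ) / B.den * pS (post (L o))) ≤
        ∑ o, wt (L o) * (phiR B 0 (post (L o)) + phiR B 1 (post (L o))) :=
      Finset.sum_le_sum fun o _ => wt_le (hL.nonneg o)
        (g := fun p => (B.low : ℝ) / B.den * pS p) (h := fun p => phiR B 0 p + phiR B 1 p)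
        fun p hp => hB.lower p hp
    simp only [mul_left_comm (wt _) ((B.low : ℝ) / B.den), ← Finset.mul_sum, ← chX_eq_sum hL,
      mul_add, Finset.sum_add_distrib] at h
    have a : ∀ j, ∑ o, wt (L o) * phiR B j (post (L o)) ≤ potS (fL B) L := fun j =>
      Finset.le_sup' (fun j => ∑ o, fL B j (L o)) (Finset.mem_univ j)
    linarith [a 0, a 1]
  upper := by
    obtain ⟨C, hC⟩ := hB.upper_bd
    refine ⟨C, fun {A} _ L hL => Finset.sup'_le _ _ fun k _ => ?_⟩
    calc ∑ o, fL B k (L o) = ∑ o, wt (L o) * phiR B k (post (L o)) := rfl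
      _ ≤ ∑ o, wt (L o) * (fun _ => C) (post (L o)) :=
          Finset.sum_le_sum fun o _ => wt_le (hL.nonneg o) (h := fun _ => C) fun p hp => hC k p hp
      _ = C := by rw [← Finset.sum_mul, sum_wt hL, one_mul]
  unit := by
    refine Finset.sup'_le _ _ fun k _ => ?_
    have e : post (fun _ : Fin 3 => (1 : ℝ)) = fun _ => 1 / 3 := by
      funext i; norm_num [post, mass]
    have hu := hB.unit k
    simp only [Finset.univ_unique, Finset.sum_singleton, fL, e, hu, mul_zero, le_refl]
  gnn := fun {A} _ L hL => by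
    obtain ⟨C, hC⟩ := hB.mult_mem
    calc (0 : ℝ) = ∑ o, wt (L o) * (fun _ => (0 : ℝ)) (post (L o)) := by simp
      _ ≤ _ := Finset.sum_le_sum fun o _ => wt_le (hL.nonneg o) (g := fun _ => 0)
          fun p hp => (hC p hp).1
  gle := by
    obtain ⟨C, hC⟩ := hB.mult_mem
    refine ⟨C, fun {A} _ L hL => ?_⟩
    calc ∑ o, gL B (L o) = ∑ o, wt (L o) * multR B (post (L o)) := rfl
      _ ≤ ∑ o, wt (L o) * (fun _ => C) (post (L o)) :=
          Finset.sum_le_sum fun o _ => wt_le (hL.nonneg o) (h := fun _ => C)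
            fun p hp => (hC p hp).2
      _ = C := by rw [← Finset.sum_mul, sum_wt hL, one_mul]
  step := ⟨(B.gain : ℝ) / B.wden,
    div_pos (by exact_mod_cast hB.gain_pos) (by exact_mod_cast hB.wden_pos),
    fun {A C} _ _ M L hM hL => Finset.sup'_le _ _ fun k _ => band_step hB h0 h1 k hM hL⟩

end Vale.Agent.P154.Neg.Band
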