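import Vale.Agent.P154.Neg.Band.Runs
import Vale.Agent.P154.Neg.Band.Five.Main
import Vale.Agent.P154.Neg.Band.Half.Main

/-!
# P154: both bands are checked; only the runs remain
-/

namespace Vale.Agent.P154.Neg

/-- Both halves of the question from the runs alone. -/
theorem threshold_of_runsBelow (hr : RunsBelow (9 / 1000) runBoxes) : Threshold := by
  obtain ⟨a0, a1⟩ := Band.Five.interval
  obtain ⟨c0, c1⟩ := Band.Half.interval
  refine threshold_of_runs Band.Five.sound (le_of_eq Band.Five.threshold.symm) a0.le a1.ge
    Band.Half.sound ?_ c0.le (by rw [a0, c1]) (by rw [c1]; norm_num) ?_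
  · rw [Band.Half.threshold]; norm_num
  · rw [Band.Half.threshold]; exact hr

end Vale.Agent.P154.Neg
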